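import Vale.Agent.P141.H958.StarB
import Vale.Agent.P141.H170.Theta

/-!
# P141, line W: moving functions of the line as paths on the squares of two coordinates

`G k` is the function of the line used at the scale `k`.  With the other coordinates fixed and a
gauge `a` it gives the moving function `a (x, y) * G k (t + d x + d' y)` on the squares.
-/

namespace Vale.Agent.P141.H540

open Finset Matrix Vale.Agent.P075 Vale.Agent.P141.PL Vale.Agent.P141.PL.H588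
open Vale.Agent.P141.PL.H804 Vale.Agent.P141.H736 Vale.Agent.P141.H958 Vale.Agent.P141.H170

noncomputable section

open scoped Classical

/-- the linear form -/
def ln (t d d' x y : ℤ) : ℤ := t + d * x + d' * y

/-- the lift of a moving function of the line, with the gauge `a` -/
def lft (a : ℤ → ℤ → ℝ) (t d d' : ℤ) (G : ℕ → ℤ → ℝ) (k : ℕ) (x y : ℤ) : ℝ :=
  a x y * G k (ln t d d' x y)

/-- the squares which meet the changed points -/
def QL (t d d' : ℤ) (T : ℕ → ℤ → Prop) (k : ℕ) (n m : ℤ) : Prop :=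
  ∃ x ∈ iv k n, ∃ y ∈ iv k m, T k (ln t d d' x y)

theorem path_lft {N : ℕ} {R S : ℤ} (a : ℤ → ℤ → ℝ) {t d d' : ℤ} {T : ℕ → ℤ → Prop}
    {G : ℕ → ℤ → ℝ} (hT : ∀ k < N, ∀ s, ¬ T k s → G (k + 1) s = G k s) :
    Path N R S (QL t d d' T) (lft a t d d' G) := by
  intro k hk n _ m _ hq x hx y hy
  unfold lft
  rw [hT k hk _ fun h => hq ⟨x, hx, y, hy, h⟩]

theorem lft_zero (a : ℤ → ℤ → ℝ) (t d d' : ℤ) {G : ℕ → ℤ → ℝ} (h : G 0 = 0) :
    lft a t d d' G 0 = 0 := by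
  funext x y
  simp [lft, h]

/-- Every point of the line is used once in every row. -/
theorem sum_ln_le {A B I : Finset ℤ} {t d d' : ℤ} (hd : d' ≠ 0) {P : ℤ → ℤ → Prop}
    {P' : ℤ → Prop} {g : ℤ → ℝ} (hg : ∀ s, 0 ≤ g s)
    (hI : ∀ x ∈ A, ∀ y ∈ B, ln t d d' x y ∈ I)
    (hP : ∀ x ∈ A, ∀ y ∈ B, P x y → P' (ln t d d' x y)) :
    ∑ x ∈ A, ∑ y ∈ B, (if P x y then g (ln t d d' x y) else 0) ≤
      A.card * ∑ s ∈ I, if P' s then g s else 0 := by
  rw [← nsmul_eq_mul]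
  refine sum_le_card_nsmul _ _ _ fun x hx => ?_
  rw [← sum_filter, ← sum_filter]
  have hinj : Set.InjOn (fun y => ln t d d' x y) (B.filter fun y => P x y) := by
    intro y _ y' _ h
    have h1 : d' * y = d' * y' := by
      have : ln t d d' x y = ln t d d' x y' := h
      unfold ln at this
      linarith
    exact mul_left_cancel₀ hd h1
  have e : ∑ y ∈ B.filter (fun y => P x y), g (ln t d d' x y) =
      ∑ s ∈ (B.filter fun y => P x y).image (fun y => ln t d d' x y), g s :=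
    (sum_image hinj).symm
  rw [e]
  refine sum_le_sum_of_subset_of_nonneg ?_ fun s _ _ => hg s
  intro s hs
  obtain ⟨y, hy, rfl⟩ := mem_image.1 hs
  rw [mem_filter] at hy
  exact mem_filter.2 ⟨hI x hx y hy.1, hP x hx y hy.1 hy.2⟩

/-- the sum over the squares of scale `k` of the root is a sum over the points -/
theorem sqQ_eq {N k : ℕ} (hk : k ≤ N) (R S : ℤ) (Q : ℤ → ℤ → Prop) (F : ℤ → ℤ → ℝ) :
    sqQ N R S k Q F = ∑ x ∈ iv N R, ∑ y ∈ iv N S,
      if Q (ix k x) (ix k y) then F x y ^ 2 else 0 := by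
  unfold sqQ sqb
  rw [sum_comm, sum_comm (s := iv N R)]
  have h1 : ∀ n ∈ iv (N - k) R, ∀ m ∈ iv (N - k) S,
      (if Q n m then ∑ y ∈ iv k m, ∑ x ∈ iv k n, F x y ^ 2 else 0) =
      ∑ y ∈ iv k m, ∑ x ∈ iv k n, if Q (ix k x) (ix k y) then F x y ^ 2 else 0 := by
    intro n _ m _
    split_ifs with h
    · refine sum_congr rfl fun y hy => sum_congr rfl fun x hx => ?_
      rw [mem_iv.1 hy, mem_iv.1 hx, if_pos h]
    · symm
      refine sum_eq_zero fun y hy => sum_eq_zero fun x hx => ?_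
      rw [mem_iv.1 hy, mem_iv.1 hx, if_neg h]
  rw [sum_congr rfl fun n hn => sum_congr rfl fun m hm => h1 n hn m hm]
  have h2 : ∀ n ∈ iv (N - k) R, ∑ m ∈ iv (N - k) S,
      ∑ y ∈ iv k m, ∑ x ∈ iv k n, (if Q (ix k x) (ix k y) then F x y ^ 2 else 0) =
      ∑ y ∈ iv N S, ∑ x ∈ iv k n, (if Q (ix k x) (ix k y) then F x y ^ 2 else 0) :=
    fun n _ => iv_sum hk S _
  rw [sum_congr rfl h2, sum_comm]
  exact sum_congr rfl fun y _ => iv_sum hk R _

theorem arQ_eq {N k : ℕ} (hk : k ≤ N) (R S : ℤ) (Q : ℤ → ℤ → Prop) :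
    arQ N R S k Q = ∑ x ∈ iv N R, ∑ y ∈ iv N S, if Q (ix k x) (ix k y) then (1 : ℝ) else 0 := by
  have h := sqQ_eq hk R S Q fun _ _ => (1 : ℝ)
  simp only [one_pow] at h
  rw [← h]
  unfold arQ sqQ sqb
  rw [mul_sum]
  refine sum_congr rfl fun m _ => ?_
  rw [mul_sum]
  refine sum_congr rfl fun n _ => ?_
  split_ifs
  · simp only [one_pow, sum_const, card_iv, nsmul_eq_mul, mul_one]
    push_cast
    rw [← mul_pow]; norm_num
  · rw [mul_zero]

/-- two points of a square have close images -/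
theorem ln_close {k : ℕ} {n m x x' y y' t d d' : ℤ} (hx : x ∈ iv k n) (hx' : x' ∈ iv k n)
    (hy : y ∈ iv k m) (hy' : y' ∈ iv k m) :
    |ln t d d' x y - ln t d d' x' y'| ≤ (|d| + |d'|) * (2 ^ k - 1) := by
  have h1 : |x - x'| ≤ 2 ^ k - 1 := by
    unfold iv at hx hx'
    rw [mem_Ico] at hx hx'
    rw [abs_le]; constructor <;> linarith
  have h2 : |y - y'| ≤ 2 ^ k - 1 := by
    unfold iv at hy hy'
    rw [mem_Ico] at hy hy'
    rw [abs_le]; constructor <;> linarith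
  have e : ln t d d' x y - ln t d d' x' y' = d * (x - x') + d' * (y - y') := by unfold ln; ring
  rw [e]
  refine (abs_add_le _ _).trans ?_
  rw [abs_mul, abs_mul, add_mul]
  exact add_le_add (mul_le_mul_of_nonneg_left h1 (abs_nonneg _))
    (mul_le_mul_of_nonneg_left h2 (abs_nonneg _))

section

variable {N : ℕ} {R S : ℤ} {a : ℤ → ℤ → ℝ} {t d d' : ℤ} {T T' : ℕ → ℤ → Prop} {G : ℕ → ℤ → ℝ}
  {I : Finset ℤ} {M : ℝ}

theorem QL_ix {k : ℕ} {x y : ℤ}
    (hT : ∀ s s', T k s' → |s - s'| ≤ (|d| + |d'|) * (2 ^ k - 1) → T' k s)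
    (h : QL t d d' T k (ix k x) (ix k y)) : T' k (ln t d d' x y) := by
  obtain ⟨x', hx', y', hy', h⟩ := h
  exact hT _ _ h (ln_close (self_mem_iv k x) hx' (self_mem_iv k y) hy')

/-- the energy of a lift on a set of squares -/
theorem sqQ_lft_le {k : ℕ} (hk : k ≤ N) (hd : d' ≠ 0) (hM : ∀ x y, |a x y| ≤ M)
    (hI : ∀ x ∈ iv N R, ∀ y ∈ iv N S, ln t d d' x y ∈ I) {Q : ℤ → ℤ → Prop} {P' : ℤ → Prop}
    (hQ : ∀ x y, Q (ix k x) (ix k y) → P' (ln t d d' x y)) (g : ℤ → ℝ) :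
    sqQ N R S k Q (fun x y => a x y * g (ln t d d' x y)) ≤
      M ^ 2 * (2 ^ N * ∑ s ∈ I, if P' s then g s ^ 2 else 0) := by
  rw [sqQ_eq hk]
  have h1 : ∑ x ∈ iv N R, ∑ y ∈ iv N S,
      (if Q (ix k x) (ix k y) then (a x y * g (ln t d d' x y)) ^ 2 else 0) ≤
      M ^ 2 * ∑ x ∈ iv N R, ∑ y ∈ iv N S,
        (if Q (ix k x) (ix k y) then g (ln t d d' x y) ^ 2 else 0) := by
    rw [mul_sum]
    refine sum_le_sum fun x _ => ?_
    rw [mul_sum]
    refine sum_le_sum fun y _ => ?_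
    split_ifs
    · rw [mul_pow]
      refine mul_le_mul_of_nonneg_right ?_ (sq_nonneg _)
      rw [← sq_abs (a x y)]
      exact pow_le_pow_left₀ (abs_nonneg _) (hM x y) 2
    · rw [mul_zero]
  refine h1.trans (mul_le_mul_of_nonneg_left ?_ (sq_nonneg _))
  have h2 := sum_ln_le (A := iv N R) (B := iv N S) (I := I) hd (P := fun x y => Q (ix k x) (ix k y))
    (P' := P') (g := fun s => g s ^ 2) (fun s => sq_nonneg _) hI (fun x _ y _ h => hQ x y h)
  rw [card_iv] at h2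
  push_cast at h2
  exact h2

/-- **The power of a lift.** -/
theorem pwr_lft_le (hd : d' ≠ 0) (hM : ∀ x y, |a x y| ≤ M)
    (hI : ∀ x ∈ iv N R, ∀ y ∈ iv N S, ln t d d' x y ∈ I)
    (hT : ∀ k < N, ∀ s s', T k s' → |s - s'| ≤ (|d| + |d'|) * (2 ^ k - 1) → T' k s) :
    pwr N R S (QL t d d' T) (lft a t d d' G) ≤
      M ^ 2 * (2 ^ N * ∑ k ∈ range N, ∑ s ∈ I, if T' k s then G (k + 1) s ^ 2 else 0) := by
  unfold pwr
  rw [mul_sum, mul_sum]
  refine sum_le_sum fun k hk => ?_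
  have hk' := mem_range.1 hk
  exact sqQ_lft_le hk'.le hd hM hI (fun x y h => QL_ix (hT k hk') h) (G (k + 1))

/-- **The area of the changes of a lift.** -/
theorem evt_lft_le (hd : d' ≠ 0) (hI : ∀ x ∈ iv N R, ∀ y ∈ iv N S, ln t d d' x y ∈ I)
    (hT : ∀ k < N, ∀ s s', T k s' → |s - s'| ≤ (|d| + |d'|) * (2 ^ k - 1) → T' k s) :
    evt N R S (QL t d d' T) ≤
      2 ^ N * ∑ k ∈ range N, ∑ s ∈ I, if T' k s then (1 : ℝ) else 0 := by
  unfold evt
  rw [mul_sum]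
  refine sum_le_sum fun k hk => ?_
  have hk' := mem_range.1 hk
  rw [arQ_eq hk'.le]
  have h2 := sum_ln_le (A := iv N R) (B := iv N S) (I := I) hd
    (P := fun x y => QL t d d' T k (ix k x) (ix k y)) (P' := T' k) (g := fun _ => (1 : ℝ))
    (fun s => zero_le_one) hI (fun x _ y _ h => QL_ix (hT k hk') h)
  rw [card_iv] at h2
  push_cast at h2
  exact h2

/-- the energy of a lift on one square -/
theorem sqb_lft_le {k : ℕ} {n m : ℤ} (hd : d' ≠ 0) (hM : ∀ x y, |a x y| ≤ M) {J : Finset ℤ}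
    (hJ : ∀ x ∈ iv k n, ∀ y ∈ iv k m, ln t d d' x y ∈ J) (g : ℤ → ℝ) :
    sqb k n m (fun x y => a x y * g (ln t d d' x y)) ≤ M ^ 2 * (2 ^ k * ∑ s ∈ J, g s ^ 2) := by
  unfold sqb
  rw [sum_comm]
  have h1 : ∑ x ∈ iv k n, ∑ y ∈ iv k m, (a x y * g (ln t d d' x y)) ^ 2 ≤
      M ^ 2 * ∑ x ∈ iv k n, ∑ y ∈ iv k m, g (ln t d d' x y) ^ 2 := by
    rw [mul_sum]
    refine sum_le_sum fun x _ => ?_
    rw [mul_sum]
    refine sum_le_sum fun y _ => ?_
    rw [mul_pow]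
    refine mul_le_mul_of_nonneg_right ?_ (sq_nonneg _)
    rw [← sq_abs (a x y)]
    exact pow_le_pow_left₀ (abs_nonneg _) (hM x y) 2
  refine h1.trans (mul_le_mul_of_nonneg_left ?_ (sq_nonneg _))
  have h2 := sum_ln_le (A := iv k n) (B := iv k m) (I := J) hd (P := fun _ _ => True)
    (P' := fun _ => True) (g := fun s => g s ^ 2) (fun s => sq_nonneg _) hJ
    (fun x _ y _ _ => trivial)
  simp only [if_true] at h2
  rw [card_iv] at h2
  push_cast at h2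
  exact h2

/-- the norm of a function on a square is at most its cap -/
theorem cap_of_sqb {k : ℕ} {n m : ℤ} {c : ℝ} {F : ℤ → ℤ → ℝ}
    (h : sqb k n m F ≤ c ^ 2 * 4 ^ k) : Cap k n m c F := by
  intro u v
  have h1 : (∑ x ∈ iv k n, ∑ y ∈ iv k m, u x * v y * F x y) ^ 2 ≤
      (∑ x ∈ iv k n, u x ^ 2) * (∑ y ∈ iv k m, v y ^ 2) * sqb k n m F := by
    have e1 : ∑ x ∈ iv k n, ∑ y ∈ iv k m, u x * v y * F x y =
        ∑ p ∈ iv k n ×ˢ iv k m, (u p.1 * v p.2) * F p.1 p.2 := by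
      rw [sum_product]
    have e2 : (∑ x ∈ iv k n, u x ^ 2) * (∑ y ∈ iv k m, v y ^ 2) =
        ∑ p ∈ iv k n ×ˢ iv k m, (u p.1 * v p.2) ^ 2 := by
      rw [sum_product, sum_mul_sum]
      exact sum_congr rfl fun x _ => sum_congr rfl fun y _ => by ring
    have e3 : sqb k n m F = ∑ p ∈ iv k n ×ˢ iv k m, F p.1 p.2 ^ 2 := by
      rw [sqb, sum_product, sum_comm]
    rw [e1, e2, e3]
    exact sum_mul_sq_le_sq_mul_sq _ _ _
  have hu : 0 ≤ ∑ x ∈ iv k n, u x ^ 2 := sum_nonneg fun _ _ => sq_nonneg _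
  have hv : 0 ≤ ∑ y ∈ iv k m, v y ^ 2 := sum_nonneg fun _ _ => sq_nonneg _
  refine h1.trans ?_
  have h2 := mul_le_mul_of_nonneg_left h (mul_nonneg hu hv)
  refine h2.trans (le_of_eq ?_)
  have : (4 : ℝ) ^ k = (2 ^ k) ^ 2 := by rw [← pow_mul, mul_comm, pow_mul]; norm_num
  rw [this]; ring

/-- **The cap of a lift on one square.** -/
theorem cap_lft {k : ℕ} {n m : ℤ} (hd : d' ≠ 0) (hM : ∀ x y, |a x y| ≤ M)
    {J : Finset ℤ} {e : ℝ} (he : 0 ≤ e)
    (hJ : ∀ x ∈ iv k n, ∀ y ∈ iv k m, ln t d d' x y ∈ J)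
    (hG : ∑ s ∈ J, G k s ^ 2 ≤ 2 ^ k * e) : Cap k n m (M * √e) (lft a t d d' G k) := by
  refine cap_of_sqb ?_
  refine (sqb_lft_le hd hM hJ (G k)).trans ?_
  rw [mul_pow, Real.sq_sqrt he]
  have h1 := mul_le_mul_of_nonneg_left hG (by positivity : (0 : ℝ) ≤ M ^ 2 * 2 ^ k)
  have : (4 : ℝ) ^ k = 2 ^ k * 2 ^ k := by rw [← mul_pow]; norm_num
  rw [this]
  nlinarith [h1]

end

end

end Vale.Agent.P141.H540
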