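import Vale.Agent.P141.H540.Star2
import Vale.Agent.P141.H38.Pow
import Vale.Agent.P141.H150.MvE
import Vale.Agent.P141.H585.Stop3
import Vale.Agent.P141.H865.Ker

/-!
# P141, line W, end lemma: the residual part of one birth on one root box

One vertex-type atom `v` on the cube of `q` of scale `K`, one root `R` (three indices of scale `K`),
the first coordinates `x0 ∈ X0`.  `rpart`: the sum over the offsets `θ`, over `x0`, over the scales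
and over the used boxes of the trilinear forms of the two moving gauged lifts (edges `12`, `13`)
and of the residual of the plane process of the edge `23` (letters of `H865.Ker`), by the star with
common caps.  `rpart_num`: the same in numbers.
-/

namespace Vale.Agent.P141.H540

open Finset Vale.Agent.P141.PL
open Vale.Agent.P141.PL.H804 Vale.Agent.P141.H736 Vale.Agent.P141.H958 Vale.Agent.P141.H170
open Vale.Agent.P141.PL.H588 (Pl)
open Vale.Agent.P141.H443 (E2)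
open Vale.Agent.P141.H150.Mv (RsH QH BH BH_pos BH_zero path_H cap_H evE pwr_E')
open Vale.Agent.P141.H865 (Bth Bth.mn kA evO kA_eq rsO)
open Vale.Agent.P141.H585 (VC mnA sd12 sd13 sd23 sd12_nonneg sd13_nonneg sd23_nonneg rC rC_nonneg
  lvS evt thC thC_nonneg hgt_th hgt_nonneg id1 id1_nonneg id1_sq sum_lvS_le mn_ed12 mn_ed13 mn_ed23
  uT_eq23 Ed)
open Vale.Agent.P141.H911 (Th uT)
open Vale.Agent.P141.H38 (lfm QM lfm_zero evq ga12 ga13 path12 path13 pow12 pow13 abs_cs_le)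
open Vale.Agent.P141.PL.H315 (Tri)

noncomputable section

open scoped Classical

variable {κ μ : ℝ} {K k : ℕ} {c p q : Pt} {u v : Tri} {E1 E2' E3 : Finset ℤ}

/-- the sum of the squares of a function with a carrier of small density, translated -/
theorem sum_sq_lv {h θ : ℝ} (hθ : 0 ≤ θ) {E : Finset ℤ} (hk : k ≤ K) {f : ℤ → ℝ} {t : ℤ}
    (hf : ∀ y, |f y| ≤ h * id1 (lvS θ E K k) (y + t)) (m : ℤ) :
    ∑ y ∈ iv k m, f y ^ 2 ≤ h ^ 2 * (2 * θ) * 2 ^ k := by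
  have e1 : ∀ y, f y ^ 2 ≤ h ^ 2 * id1 (lvS θ E K k) (y + t) := by
    intro y
    have h1 := pow_le_pow_left₀ (abs_nonneg _) (hf y) 2
    rw [sq_abs, mul_pow, id1_sq] at h1
    exact h1
  refine (sum_le_sum fun y _ => e1 y).trans ?_
  rw [← mul_sum]
  have e2 : ∑ y ∈ iv k m, id1 (lvS θ E K k) (y + t) =
      ∑ x ∈ Ico (2 ^ k * m + t) (2 ^ k * m + t + 2 ^ k), id1 (lvS θ E K k) x := by
    refine sum_bij (fun x _ => x + t) ?_ ?_ ?_ ?_
    · intro x hx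
      unfold iv at hx
      rw [mem_Ico] at hx ⊢
      constructor <;> linarith [hx.1, hx.2]
    · intro x _ y _ h
      linarith
    · intro y hy
      rw [mem_Ico] at hy
      refine ⟨y - t, ?_, by ring⟩
      unfold iv
      rw [mem_Ico]
      constructor <;> linarith [hy.1, hy.2]
    · intro x _; rfl
  rw [e2, mul_assoc]
  exact mul_le_mul_of_nonneg_left (sum_lvS_le hθ le_rfl hk _) (sq_nonneg _)

/-- rows of the gauge of the edge `12` -/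
theorem row12 (hμ : 0 ≤ μ) (hv : VC κ K q u v E1 E2' E3) (hk : k ≤ K) (θ : Pt) (m x : ℤ) :
    ∑ y ∈ iv k m, ga12 K q (thC μ K q u) E1 E2' E3 v θ k x y ^ 2 ≤
      2 * (μ * rC K q u ^ 2 * sd12 K q u ^ 2 / κ ^ 4) * 2 ^ k := by
  have h1 := sum_sq_lv (k := k) (K := K) (thC_nonneg hμ K q u) (E := E2') hk
    (f := fun y => ga12 K q (thC μ K q u) E1 E2' E3 v θ k x y) (t := θ.2.1)
    (h := rC K q u ^ 2 * sd12 K q u / κ ^ 2) (fun y => (abs_cs_le x y).trans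
      ((mn_ed12 hv _ k).right (hgt_nonneg κ K q u (sd12_nonneg K q u)) _ _)) m
  refine h1.trans (le_of_eq ?_)
  rw [← hgt_th]
  ring

/-- rows of the gauge of the edge `13` -/
theorem row13 (hμ : 0 ≤ μ) (hv : VC κ K q u v E1 E2' E3) (hk : k ≤ K) (θ : Pt) (m x : ℤ) :
    ∑ y ∈ iv k m, ga13 K q (thC μ K q u) E1 E2' E3 v θ k x y ^ 2 ≤
      2 * (μ * rC K q u ^ 2 * sd13 K q u ^ 2 / κ ^ 4) * 2 ^ k := by
  have h1 := sum_sq_lv (k := k) (K := K) (thC_nonneg hμ K q u) (E := E3) hk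
    (f := fun y => ga13 K q (thC μ K q u) E1 E2' E3 v θ k x y) (t := θ.2.2)
    (h := rC K q u ^ 2 * sd13 K q u / κ ^ 2) (fun y => (abs_cs_le x y).trans
      ((mn_ed13 hv _ k).right (hgt_nonneg κ K q u (sd13_nonneg K q u)) _ _)) m
  refine h1.trans (le_of_eq ?_)
  rw [← hgt_th]
  ring

/-- the energy of the plane kernel on a square -/
theorem sq23 (hμ : 0 ≤ μ) (B : Bth) (hth : B.th = thC μ B.K B.q u)
    (hv : VC κ B.K B.q u B.v B.S1 B.S2 B.S3) (hk : k ≤ B.K) (θ : Pt)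
    {G : ℕ → ℤ → ℤ → ℝ} {Λ : ℝ}
    (hG : ∀ x m, ∑ y ∈ iv k m, G k x y ^ 2 ≤ Λ * 2 ^ k) (n m : ℤ) :
    E2 (iv k n) (iv k m) (kA B G θ k) ≤
      2 * (μ * rC B.K B.q u ^ 2 * sd23 B.K B.q u ^ 2 / κ ^ 4) * Λ * 4 ^ k := by
  set h := rC B.K B.q u ^ 2 * sd23 B.K B.q u / κ ^ 2 with hh
  have hh0 : 0 ≤ h := hgt_nonneg κ B.K B.q u (sd23_nonneg B.K B.q u)
  have hth0 := thC_nonneg hμ B.K B.q u
  have hΛ : 0 ≤ Λ * 2 ^ k := (sum_nonneg fun _ _ => sq_nonneg _).trans (hG 0 0)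
  have e1 : ∀ x y, |(uT B.K B.q θ (B.mn k)).2.2 (x, y)| ≤
      h * id1 (lvS (thC μ B.K B.q u) B.S2 B.K k) (x + θ.2.1) := by
    intro x y
    unfold Bth.mn
    rw [hth]
    exact (abs_cs_le x y).trans ((mn_ed23 hv _ k).left hh0 _ _)
  unfold E2
  have e2 : ∀ x ∈ iv k n, ∑ y ∈ iv k m, kA B G θ k x y ^ 2 ≤
      (h * id1 (lvS (thC μ B.K B.q u) B.S2 B.K k) (x + θ.2.1)) ^ 2 * (Λ * 2 ^ k) := by
    intro x _
    refine le_trans ?_ (mul_le_mul_of_nonneg_left (hG x m) (sq_nonneg _))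
    rw [mul_sum]
    refine sum_le_sum fun y _ => ?_
    unfold kA
    rw [mul_pow]
    refine mul_le_mul_of_nonneg_right ?_ (sq_nonneg _)
    have h1 := pow_le_pow_left₀ (abs_nonneg _) (e1 x y) 2
    rwa [sq_abs] at h1
  refine (sum_le_sum e2).trans ?_
  rw [← sum_mul]
  have e3 := sum_sq_lv (k := k) (K := B.K) hth0 (E := B.S2) hk
    (f := fun x => h * id1 (lvS (thC μ B.K B.q u) B.S2 B.K k) (x + θ.2.1)) (t := θ.2.1) (h := h)
    (fun y => by rw [abs_of_nonneg (mul_nonneg hh0 (id1_nonneg _ _))]) n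
  refine (mul_le_mul_of_nonneg_right e3 hΛ).trans (le_of_eq ?_)
  rw [← hgt_th, show (4 : ℝ) ^ k = 2 ^ k * 2 ^ k by rw [← mul_pow]; norm_num]
  ring

/-- the offset of the box of a scale at fixed first coordinate -/
theorem pl_ix {o : ℤ} (ho : o = 1 ∨ o = -1) (x0 : ℤ) : Pl fun k => o - 2 - ix k x0 := by
  intro k
  have h1 : ix (k + 1) x0 = ix k x0 / 2 := by
    unfold ix
    rw [pow_succ, ← Int.ediv_ediv_of_nonneg (by positivity)]
  show 0 ≤ o - 2 - ix k x0 - 2 * (o - 2 - ix (k + 1) x0) ∧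
    o - 2 - ix k x0 - 2 * (o - 2 - ix (k + 1) x0) ≤ 3
  rw [h1]
  rcases ho with rfl | rfl <;> omega

/-- one slot on the lines of a root: the moving function of a line, zero at the scale `0` -/
structure LineH (K : ℕ) (R S : ℤ) (X0 : Finset ℤ) (t0 d0 d d' : ℤ) (T T' : ℕ → ℤ → Prop)
    (I : Finset ℤ) (G : ℕ → ℤ → ℝ) (D L : ℝ) : Prop where
  nz : d' ≠ 0
  z : G 0 = 0
  hT : ∀ k < K, ∀ s, ¬ T k s → G (k + 1) s = G k s
  hT' : ∀ k < K, ∀ s s', T k s' → |s - s'| ≤ (|d| + |d'|) * (2 ^ k - 1) → T' k s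
  hI : ∀ x0 ∈ X0, ∀ x ∈ iv K R, ∀ y ∈ iv K S, ln (t0 + d0 * x0) d d' x y ∈ I
  hD : ∑ k ∈ range K, ∑ s ∈ I, (if T' k s then G (k + 1) s ^ 2 else 0) ≤ D
  hL : ∀ k < K, ∀ x ∈ iv K R, ∀ y ∈ iv K S,
    ∑ x0 ∈ X0, G (k + 1) (ln (t0 + d0 * x0) d d' x y) ^ 2 ≤ L
  L0 : 0 ≤ L

/-- **The residual part of one birth on one root box.** -/
theorem rpart {o : ℤ} (ho : o = 1 ∨ o = -1) (hc2 : c.2.1 ≠ 0) (hc3 : c.2.2 ≠ 0) (hκ : 0 < κ)
    (hμ : 0 ≤ μ) (B : Bth) (hth : B.th = thC μ B.K B.q u)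
    (hv : VC κ B.K B.q u B.v B.S1 B.S2 B.S3) (R : Pt) (X0 : Finset ℤ)
    {s : ℤ → ℕ → Finset Pt}
    (hs : ∀ x0 ∈ X0, ∀ k ∈ Icc 1 B.K, s x0 k ⊆ bx3 B.K R k (o - 2 - ix k x0))
    {Y X : ℕ → ℤ → ℝ} {tY aY dY dY' tX aX dX dX' : ℤ}
    {TY TY' TX TX' : ℕ → ℤ → Prop} {IY IX : Finset ℤ} {DY LY DX LX eY eX LG Lp τ NE : ℝ}
    (HY : LineH B.K R.1 R.2.1 X0 tY aY dY dY' TY TY' IY Y DY LY)
    (HX : LineH B.K R.1 R.2.2 X0 tX aX dX dX' TX TX' IX X DX LX)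
    (heY : 0 < eY) (heX : 0 < eX)
    (cY : ∀ k ∈ Icc 1 B.K, ∀ s n, ∑ x ∈ iv k n, Y k (s + dY * x) ^ 2 ≤ eY * 2 ^ k)
    (cX : ∀ k ∈ Icc 1 B.K, ∀ s n, ∑ x ∈ iv k n, X k (s + dX * x) ^ 2 ≤ eX * 2 ^ k)
    {G : ℤ → ℕ → ℤ → ℤ → ℝ} {ex : ℤ → ℕ → ℤ → ℤ → Prop}
    (hG : ∀ x0 ∈ X0, ∀ k n m, ¬ ex x0 k n m →
      ∀ x ∈ iv k n, ∀ y ∈ iv k m, G x0 k x y = G x0 (k + 1) x y)
    (cG : ∀ x0 ∈ X0, ∀ k ≤ B.K, ∀ x m, ∑ y ∈ iv k m, G x0 k x y ^ 2 ≤ LG * 2 ^ k)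
    (h12 : 0 < μ * rC B.K B.q u ^ 2 * sd12 B.K B.q u ^ 2 / κ ^ 4)
    (h13 : 0 < μ * rC B.K B.q u ^ 2 * sd13 B.K B.q u ^ 2 / κ ^ 4)
    (hτ : 0 < τ) (hLp : 0 < Lp)
    (hE : 2 * (μ * rC B.K B.q u ^ 2 * sd23 B.K B.q u ^ 2 / κ ^ 4) * LG ≤ Lp)
    (hcp : B.cp = Lp / τ ^ 4) (hxi : B.xi = τ ^ 2 / 4) (het : B.et = τ ^ 2 / 4)
    (hNE : ∑ θ ∈ Th c B.K p B.q, ∑ x0 ∈ X0,
      (E2 (iv B.K R.2.1) (iv B.K R.2.2) (kA B (G x0) θ B.K) +
        evE (kA B (G x0) θ) (evO B (ex x0) θ) B.K R.2.1 R.2.2) ≤ NE) :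
    ∑ θ ∈ Th c B.K p B.q, ∑ x0 ∈ X0, ∑ k ∈ Icc 1 B.K, (2 ^ k : ℝ)⁻¹ * ∑ m ∈ s x0 k,
      |tri k m (lfm (ga12 B.K B.q B.th B.S1 B.S2 B.S3 B.v θ) (tY + aY * x0) dY dY' Y k)
        (rsO B (G x0) (ex x0) θ k)
        (lfm (ga13 B.K B.q B.th B.S1 B.S2 B.S3 B.v θ) (tX + aX * x0) dX dX' X k)| ≤
      26016 * (√(2 * (μ * rC B.K B.q u ^ 2 * sd12 B.K B.q u ^ 2 / κ ^ 4) * eY) *
          √((4 + 12 * Lp / τ ^ 2) * NE *
            (4 ^ B.K * sd13 B.K B.q u ^ 2 * (X0.card * (2 ^ B.K * DX)) +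
            LX * (192 * sd13 B.K B.q u ^ 2 * 16 ^ B.K / κ ^ 8))) +
        3 / 2 * τ * √((4 ^ B.K * sd13 B.K B.q u ^ 2 * (X0.card * (2 ^ B.K * DX)) +
            LX * (192 * sd13 B.K B.q u ^ 2 * 16 ^ B.K / κ ^ 8)) *
          (4 ^ B.K * sd12 B.K B.q u ^ 2 * (X0.card * (2 ^ B.K * DY)) +
            LY * (192 * sd12 B.K B.q u ^ 2 * 16 ^ B.K / κ ^ 8))) +
        √(2 * (μ * rC B.K B.q u ^ 2 * sd13 B.K B.q u ^ 2 / κ ^ 4) * eX) *
          √((4 ^ B.K * sd12 B.K B.q u ^ 2 * (X0.card * (2 ^ B.K * DY)) +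
            LY * (192 * sd12 B.K B.q u ^ 2 * 16 ^ B.K / κ ^ 8)) *
              ((4 + 12 * Lp / τ ^ 2) * NE))) := by
  have hth' := thC_nonneg hμ B.K B.q u
  have hthB : 0 ≤ B.th := hth ▸ hth'
  have hcp0 : 0 < B.cp := by rw [hcp]; positivity
  have hxi0 : 0 < B.xi := by rw [hxi]; positivity
  have het0 : 0 < B.et := by rw [het]; positivity
  have hen : ∀ x0 ∈ X0, ∀ θ : Pt, ∀ k ≤ B.K, ∀ n m : ℤ,
      E2 (iv k n) (iv k m) (kA B (G x0) θ k) ≤ Lp * 4 ^ k := fun x0 hx0 θ k hk n m =>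
    (sq23 hμ B hth hv hk θ (cG x0 hx0 k hk) n m).trans
      (mul_le_mul_of_nonneg_right hE (by positivity))
  have h := star_fam (Th c B.K p B.q ×ˢ X0) (N := B.K) (R := fun _ => R)
    (c := fun i k => o - 2 - ix k i.2)
    (A := fun i => lfm (ga12 B.K B.q B.th B.S1 B.S2 B.S3 B.v i.1) (tY + aY * i.2) dY dY' Y)
    (B := fun i => BH (kA B (G i.2) i.1) B.cp B.xi B.et (fun _ _ _ => True)
          (evO B (ex i.2) i.1) B.K)
    (C := fun i => lfm (ga13 B.K B.q B.th B.S1 B.S2 B.S3 B.v i.1) (tX + aX * i.2) dX dX' X)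
    (cA := √(2 * (μ * rC B.K B.q u ^ 2 * sd12 B.K B.q u ^ 2 / κ ^ 4) * eY)) (cB := 3 / 2 * τ)
    (cC := √(2 * (μ * rC B.K B.q u ^ 2 * sd13 B.K B.q u ^ 2 / κ ^ 4) * eX))
    (DA := 4 ^ B.K * sd12 B.K B.q u ^ 2 * (X0.card * (2 ^ B.K * DY)) +
            LY * (192 * sd12 B.K B.q u ^ 2 * 16 ^ B.K / κ ^ 8))
    (DB := (4 + 12 * Lp / τ ^ 2) * NE)
    (DC := 4 ^ B.K * sd13 B.K B.q u ^ 2 * (X0.card * (2 ^ B.K * DX)) +
            LX * (192 * sd13 B.K B.q u ^ 2 * 16 ^ B.K / κ ^ 8))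
    (s := fun i k => s i.2 k)
    (QA := fun i => QM (evq B.th B.S1 B.S2 B.K i.1.1 i.1.2.1) (tY + aY * i.2) dY dY' TY)
    (QB := fun i => QH (kA B (G i.2) i.1) B.cp B.xi B.et (fun _ _ _ => True)
          (evO B (ex i.2) i.1) B.K)
    (QC := fun i => QM (evq B.th B.S1 B.S3 B.K i.1.1 i.1.2.2) (tX + aX * i.2) dX dX' TX)
    (fun i _ => pl_ix ho i.2) (fun i hi k hk => hs i.2 (mem_product.1 hi).2 k hk)
    (Real.sqrt_pos.2 (by positivity)) (by positivity) (Real.sqrt_pos.2 (by positivity))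
    ?_ ?_ ?_
    (fun i _ => path12 i.1 HY.hT)
    (fun i hi => path_H (kA_eq (hG i.2 (mem_product.1 hi).2) i.1) _ _)
    (fun i _ => path13 i.1 HX.hT)
    (fun i _ => lfm_zero _ _ _ _ HY.z) (fun i _ => BH_zero) (fun i _ => lfm_zero _ _ _ _ HX.z)
    ?_ ?_ ?_
  · rw [sum_product] at h
    refine le_trans (le_of_eq ?_) h
    refine sum_congr rfl fun θ _ => sum_congr rfl fun x0 _ => sum_congr rfl fun k hk => ?_
    have hk1 : k ≠ 0 := by have := (mem_Icc.1 hk).1; omega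
    simp only [BH_pos hk1]
    rfl
  · -- cap of the edge 12
    intro i _ k hk m _
    have hk' := (mem_Icc.1 hk).2
    have h1 := cap_row (k := k) (n := m.1) (m := m.2.1)
      (a := ga12 B.K B.q B.th B.S1 B.S2 B.S3 B.v i.1 k)
      (F := fun x y => Y k (ln (tY + aY * i.2) dY dY' x y))
      (ρ := 2 * (μ * rC B.K B.q u ^ 2 * sd12 B.K B.q u ^ 2 / κ ^ 4)) (e := eY) (by positivity)
      heY.le
      (fun x _ => by rw [hth]; exact row12 hμ hv hk' i.1 _ x) (fun y _ => ?_)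
    · exact h1
    · have h2 := cY k hk (tY + aY * i.2 + dY' * y) m.1
      refine le_trans (le_of_eq (sum_congr rfl fun x _ => ?_)) h2
      unfold ln
      congr 2
      ring
  · -- cap of the residual
    intro i hi k hk m _
    have hk' := (mem_Icc.1 hk).2
    have e4 : √(τ ^ 2 / 4) = τ / 2 := by
      rw [show τ ^ 2 / 4 = (τ / 2) ^ 2 by ring, Real.sqrt_sq (by positivity)]
    refine cap_H hcp0 hxi0 het0.le hk trivial (s := τ) hτ.le ?_ ?_ ?_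
    · rw [hxi, e4]; linarith
    · rw [het]
      refine Real.sqrt_le_iff.2 ⟨by positivity, ?_⟩
      nlinarith
    · refine (hen i.2 (mem_product.1 hi).2 i.1 k hk' _ _).trans (le_of_eq ?_)
      have : B.cp * τ ^ 4 = Lp := by rw [hcp]; field_simp
      rw [this]
  · -- cap of the edge 13
    intro i _ k hk m _
    have hk' := (mem_Icc.1 hk).2
    have h1 := cap_row (k := k) (n := m.1) (m := m.2.2)
      (a := ga13 B.K B.q B.th B.S1 B.S2 B.S3 B.v i.1 k)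
      (F := fun x y => X k (ln (tX + aX * i.2) dX dX' x y))
      (ρ := 2 * (μ * rC B.K B.q u ^ 2 * sd13 B.K B.q u ^ 2 / κ ^ 4)) (e := eX) (by positivity)
      heX.le
      (fun x _ => by rw [hth]; exact row13 hμ hv hk' i.1 _ x) (fun y _ => ?_)
    · exact h1
    · have h2 := cX k hk (tX + aX * i.2 + dX' * y) m.1
      refine le_trans (le_of_eq (sum_congr rfl fun x _ => ?_)) h2
      unfold ln
      congr 2
      ring
  · rw [sum_product]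
    exact pow12 hc3 hκ hthB hv HY.nz HY.hT' HY.hI HY.hD HY.hL HY.L0
  · rw [sum_product]
    have e5 : 1 + (Lp + B.et) * (1 / B.et + 2 / B.xi) = 4 + 12 * Lp / τ ^ 2 := by
      rw [hxi, het]
      field_simp
      ring
    have h5 : ∀ θ ∈ Th c B.K p B.q, ∀ x0 ∈ X0,
        pwr B.K R.2.1 R.2.2 (QH (kA B (G x0) θ) B.cp B.xi B.et (fun _ _ _ => True)
          (evO B (ex x0) θ) B.K) (BH (kA B (G x0) θ) B.cp B.xi B.et (fun _ _ _ => True)
          (evO B (ex x0) θ) B.K) ≤ (4 + 12 * Lp / τ ^ 2) *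
            (E2 (iv B.K R.2.1) (iv B.K R.2.2) (kA B (G x0) θ B.K) +
              evE (kA B (G x0) θ) (evO B (ex x0) θ) B.K R.2.1 R.2.2) := by
      intro θ _ x0 hx0
      rw [← e5]
      exact pwr_E' hcp0.le hxi0 het0 (fun _ _ _ => trivial) (kA_eq (hG x0 hx0) θ) hLp.le
        (fun k hk n m => hen x0 hx0 θ k hk.le n m) _ _
    refine (sum_le_sum fun θ hθ => sum_le_sum fun x0 hx0 => h5 θ hθ x0 hx0).trans ?_
    simp_rw [← mul_sum]
    exact mul_le_mul_of_nonneg_left hNE (by positivity)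
  · rw [sum_product]
    exact pow13 hc2 hc3 hκ hthB hv HX.nz HX.hT' HX.hI HX.hD HX.hL HX.L0

end

end Vale.Agent.P141.H540
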