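import Vale.Agent.P141.H540.RPart

/-!
# P141, line W, end lemma: the residual part of one birth on one root box, in numbers
-/

namespace Vale.Agent.P141.H540

open Finset Vale.Agent.P141.PL
open Vale.Agent.P141.PL.H804 Vale.Agent.P141.H736 Vale.Agent.P141.H958 Vale.Agent.P141.H170
open Vale.Agent.P141.H443 (E2)
open Vale.Agent.P141.H150.Mv (evE)
open Vale.Agent.P141.H865 (Bth Bth.mn kA evO rsO)
open Vale.Agent.P141.H585 (VC sd12 sd13 sd23 rC rC_mul thC pwC)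
open Vale.Agent.P141.H911 (Th)
open Vale.Agent.P141.H38 (lfm ga12 ga13)
open Vale.Agent.P141.PL.H315 (Tri)

noncomputable section

open scoped Classical

variable {κ μ : ℝ} {c p : Pt} {u : Tri}

theorem sqrt_sq_mul {a b : ℝ} (hb : 0 ≤ b) : √(a * b ^ 2) = √a * b := by
  rw [mul_comm, Real.sqrt_mul (sq_nonneg b), Real.sqrt_sq hb, mul_comm]

/-- the power of one slot in numbers -/
theorem pow_num {κ nD nL n : ℝ} {K : ℕ} {x : ℝ} (hx : x ≤ 2 ^ K) (hD : 0 ≤ nD) :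
    4 ^ K * n ^ 2 * (x * (2 ^ K * (nD * 2 ^ K))) + nL * 2 ^ K * (192 * n ^ 2 * 16 ^ K / κ ^ 8) ≤
      32 ^ K * n ^ 2 * (nD + 192 * nL / κ ^ 8) := by
  have e16 : (16 : ℝ) ^ K = 2 ^ K * 2 ^ K * 2 ^ K * 2 ^ K := by
    rw [← mul_pow, ← mul_pow, ← mul_pow]; norm_num
  have e32 : (32 : ℝ) ^ K = 2 ^ K * 2 ^ K * 2 ^ K * 2 ^ K * 2 ^ K := by
    rw [← mul_pow, ← mul_pow, ← mul_pow, ← mul_pow]; norm_num
  have e4 : (4 : ℝ) ^ K = 2 ^ K * 2 ^ K := by rw [← mul_pow]; norm_num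
  have h1 : 4 ^ K * n ^ 2 * (x * (2 ^ K * (nD * 2 ^ K))) ≤
      4 ^ K * n ^ 2 * (2 ^ K * (2 ^ K * (nD * 2 ^ K))) := by
    refine mul_le_mul_of_nonneg_left ?_ (by positivity)
    exact mul_le_mul_of_nonneg_right hx (by positivity)
  refine (add_le_add h1 le_rfl).trans (le_of_eq ?_)
  rw [e16, e32, e4]
  ring

/-- **The residual part of one birth on one root box, in numbers.** -/
theorem rpart_num {o : ℤ} (ho : o = 1 ∨ o = -1) (hc2 : c.2.1 ≠ 0) (hc3 : c.2.2 ≠ 0) (hκ : 0 < κ)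
    (hμ : 0 < μ) (B : Bth) (hth : B.th = thC μ B.K B.q u)
    (hv : VC κ B.K B.q u B.v B.S1 B.S2 B.S3) (R : Pt) (X0 : Finset ℤ)
    (hX0 : (X0.card : ℝ) ≤ 2 ^ B.K) {s : ℤ → ℕ → Finset Pt}
    (hs : ∀ x0 ∈ X0, ∀ k ∈ Icc 1 B.K, s x0 k ⊆ bx3 B.K R k (o - 2 - ix k x0))
    {Y X : ℕ → ℤ → ℝ} {tY aY dY dY' tX aX dX dX' : ℤ}
    {TY TY' TX TX' : ℕ → ℤ → Prop} {IY IX : Finset ℤ} {nD nL e LG σ nE : ℝ}
    (HY : LineH B.K R.1 R.2.1 X0 tY aY dY dY' TY TY' IY Y (nD * 2 ^ B.K) (nL * 2 ^ B.K))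
    (HX : LineH B.K R.1 R.2.2 X0 tX aX dX dX' TX TX' IX X (nD * 2 ^ B.K) (nL * 2 ^ B.K))
    (hnD : 0 ≤ nD) (hnL : 0 ≤ nL) (he : 0 < e)
    (cY : ∀ k ∈ Icc 1 B.K, ∀ s n, ∑ x ∈ iv k n, Y k (s + dY * x) ^ 2 ≤ e * 2 ^ k)
    (cX : ∀ k ∈ Icc 1 B.K, ∀ s n, ∑ x ∈ iv k n, X k (s + dX * x) ^ 2 ≤ e * 2 ^ k)
    {G : ℤ → ℕ → ℤ → ℤ → ℝ} {ex : ℤ → ℕ → ℤ → ℤ → Prop}
    (hG : ∀ x0 ∈ X0, ∀ k n m, ¬ ex x0 k n m →
      ∀ x ∈ iv k n, ∀ y ∈ iv k m, G x0 k x y = G x0 (k + 1) x y)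
    (cG : ∀ x0 ∈ X0, ∀ k ≤ B.K, ∀ x m, ∑ y ∈ iv k m, G x0 k x y ^ 2 ≤ LG * 2 ^ k)
    (hW : 0 < rC B.K B.q u) (h12 : 0 < sd12 B.K B.q u) (h13 : 0 < sd13 B.K B.q u)
    (h23 : 0 < sd23 B.K B.q u) (hLG : 0 < LG) (hσ : 0 < σ)
    (hcp : B.cp = 2 * (μ * rC B.K B.q u ^ 2 * sd23 B.K B.q u ^ 2 / κ ^ 4) * LG /
      (σ * (rC B.K B.q u * sd23 B.K B.q u)) ^ 4)
    (hxi : B.xi = (σ * (rC B.K B.q u * sd23 B.K B.q u)) ^ 2 / 4)
    (het : B.et = (σ * (rC B.K B.q u * sd23 B.K B.q u)) ^ 2 / 4)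
    (hNE : ∑ θ ∈ Th c B.K p B.q, ∑ x0 ∈ X0,
      (E2 (iv B.K R.2.1) (iv B.K R.2.2) (kA B (G x0) θ B.K) +
        evE (kA B (G x0) θ) (evO B (ex x0) θ) B.K R.2.1 R.2.2) ≤
        nE * (32 ^ B.K * sd23 B.K B.q u ^ 2)) :
    ∑ θ ∈ Th c B.K p B.q, ∑ x0 ∈ X0, ∑ k ∈ Icc 1 B.K, (2 ^ k : ℝ)⁻¹ * ∑ m ∈ s x0 k,
      |tri k m (lfm (ga12 B.K B.q B.th B.S1 B.S2 B.S3 B.v θ) (tY + aY * x0) dY dY' Y k)
        (rsO B (G x0) (ex x0) θ k)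
        (lfm (ga13 B.K B.q B.th B.S1 B.S2 B.S3 B.v θ) (tX + aX * x0) dX dX' X k)| ≤
      32 ^ B.K * pwC B.K B.q u * (26016 * (2 * √(2 * (μ / κ ^ 4) * e) *
        √((4 + 24 * (μ / κ ^ 4) * LG / σ ^ 2) * nE * (nD + 192 * nL / κ ^ 8)) +
        3 / 2 * σ * (nD + 192 * nL / κ ^ 8))) := by
  set W := rC B.K B.q u with hWd
  set s1 := sd12 B.K B.q u with hs1
  set s2 := sd13 B.K B.q u with hs2
  set s3 := sd23 B.K B.q u with hs3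
  set N := nD + 192 * nL / κ ^ 8 with hN
  have hN0 : 0 ≤ N := by positivity
  set Lp := 2 * (μ * W ^ 2 * s3 ^ 2 / κ ^ 4) * LG with hLp
  have hLp0 : 0 < Lp := by positivity
  have hτ : 0 < σ * (W * s3) := by positivity
  have h := rpart (LG := LG) (Lp := Lp) (τ := σ * (W * s3)) (eY := e) (eX := e) ho hc2 hc3 hκ hμ.le
    B hth hv R X0 hs HY HX he he cY cX hG cG (by positivity) (by positivity) hτ hLp0
    le_rfl hcp hxi het hNE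
  refine h.trans ?_
  have hnE : 0 ≤ nE := by
    by_contra hneg
    have h1 : 0 ≤ ∑ θ ∈ Th c B.K p B.q, ∑ x0 ∈ X0,
      (E2 (iv B.K R.2.1) (iv B.K R.2.2) (kA B (G x0) θ B.K) +
        evE (kA B (G x0) θ) (evO B (ex x0) θ) B.K R.2.1 R.2.2) :=
      sum_nonneg fun _ _ => sum_nonneg fun _ _ => add_nonneg (H443.E2_nonneg _ _ _)
        (H150.Mv.evE_nonneg _ _ _)
    have h2 : nE * (32 ^ B.K * s3 ^ 2) < 0 := mul_neg_of_neg_of_pos (not_le.1 hneg) (by positivity)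
    linarith
  set DA := 4 ^ B.K * s1 ^ 2 * (X0.card * (2 ^ B.K * (nD * 2 ^ B.K))) +
    nL * 2 ^ B.K * (192 * s1 ^ 2 * 16 ^ B.K / κ ^ 8) with hDA
  set DC := 4 ^ B.K * s2 ^ 2 * (X0.card * (2 ^ B.K * (nD * 2 ^ B.K))) +
    nL * 2 ^ B.K * (192 * s2 ^ 2 * 16 ^ B.K / κ ^ 8) with hDC
  have a1 : DA ≤ 32 ^ B.K * s1 ^ 2 * N := pow_num hX0 hnD
  have a2 : DC ≤ 32 ^ B.K * s2 ^ 2 * N := pow_num hX0 hnD
  have a0 : 0 ≤ DA := by positivity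
  have a0' : 0 ≤ DC := by positivity
  have e1 : 12 * Lp / (σ * (W * s3)) ^ 2 = 24 * (μ / κ ^ 4) * LG / σ ^ 2 := by
    rw [hLp]; field_simp; ring
  rw [e1]
  set Q := 4 + 24 * (μ / κ ^ 4) * LG / σ ^ 2 with hQ
  have hQ0 : 0 ≤ Q := by positivity
  set P := (32 : ℝ) ^ B.K with hP
  have hP0 : 0 < P := by positivity
  have b1 : √(2 * (μ * W ^ 2 * s1 ^ 2 / κ ^ 4) * e) = √(2 * (μ / κ ^ 4) * e) * (W * s1) := by
    rw [← sqrt_sq_mul (by positivity)]; congr 1; ring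
  have b2 : √(2 * (μ * W ^ 2 * s2 ^ 2 / κ ^ 4) * e) = √(2 * (μ / κ ^ 4) * e) * (W * s2) := by
    rw [← sqrt_sq_mul (by positivity)]; congr 1; ring
  have b3 : √(Q * (nE * (P * s3 ^ 2)) * DC) ≤ √(Q * nE * N) * (P * s2 * s3) := by
    rw [← sqrt_sq_mul (by positivity)]
    refine Real.sqrt_le_sqrt ?_
    calc Q * (nE * (P * s3 ^ 2)) * DC ≤ Q * (nE * (P * s3 ^ 2)) * (P * s2 ^ 2 * N) :=
          mul_le_mul_of_nonneg_left a2 (by positivity)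
      _ = _ := by ring
  have b4 : √(DA * (Q * (nE * (P * s3 ^ 2)))) ≤ √(Q * nE * N) * (P * s1 * s3) := by
    rw [← sqrt_sq_mul (by positivity)]
    refine Real.sqrt_le_sqrt ?_
    calc DA * (Q * (nE * (P * s3 ^ 2))) ≤ (P * s1 ^ 2 * N) * (Q * (nE * (P * s3 ^ 2))) :=
          mul_le_mul_of_nonneg_right a1 (by positivity)
      _ = _ := by ring
  have b5 : √(DC * DA) ≤ P * s1 * s2 * N := by
    refine Real.sqrt_le_iff.2 ⟨by positivity, ?_⟩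
    calc DC * DA ≤ (P * s2 ^ 2 * N) * (P * s1 ^ 2 * N) := mul_le_mul a2 a1 a0 (by positivity)
      _ = _ := by ring
  rw [b1, b2]
  set A := √(2 * (μ / κ ^ 4) * e) with hA
  set Bq := √(Q * nE * N) with hBq
  have hA0 : 0 ≤ A := Real.sqrt_nonneg _
  have hB0 : 0 ≤ Bq := Real.sqrt_nonneg _
  have hpw : W * (s1 * s2 * s3) ≤ pwC B.K B.q u := rC_mul B.K B.q u
  calc _ ≤ 26016 * (A * (W * s1) * (Bq * (P * s2 * s3)) +
        3 / 2 * (σ * (W * s3)) * (P * s1 * s2 * N) + A * (W * s2) * (Bq * (P * s1 * s3))) := by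
        gcongr
    _ = P * (W * (s1 * s2 * s3)) * (26016 * (2 * A * Bq + 3 / 2 * σ * N)) := by ring
    _ ≤ _ := by
        refine mul_le_mul_of_nonneg_right ?_ (by positivity)
        exact mul_le_mul_of_nonneg_left hpw hP0.le

end

end Vale.Agent.P141.H540
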