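import Vale.Agent.P141.H540.GenTop
import Vale.Agent.P141.H841.Lay
import Vale.Agent.P141.H483.QSum

/-!
# P141, line (A): the generations of the moving slot, letters of `H677` and `H841`

`RT` is the sum of the slots `Rm (s g)`, `g ≤ K`, with signs `s g` of the label point, of the
scale and of the cells of `x0` and `x3`.  Every slot has the cap `κ g + 1`; its energy is at most
that of `RT`, and for `g + 1` at most `3 |w|²` times the probability, which is bounded by the top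
trace alone.
-/

namespace Vale.Agent.P141.H540

open Finset Matrix
open Vale.Agent.P141.PL (Pt iv hs ix mem_iv ix_ix)
open Vale.Agent.P141.H970
open Vale.Agent.P141.H43 (nsq nsq_nonneg)
open Vale.Agent.P141.H922 (ck tmean_iv)
open Vale.Agent.P141.H483 (tmean)
open Vale.Agent.P141.H690 (tr6 tr6_zero Pst6 MX Qs Qs_psd prob_stop6 XT XT_symm XT_sum_le'
  XT_trace_le XT_psd Qs_trace_eq)
open Vale.Agent.P141.H677 (KT GT MT RT thN nd3 sN cP rv rt ix_two ix_le hs_ix)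

noncomputable section

open scoped Classical

set_option linter.unusedSectionVars false

variable {ι : Type*} [Fintype ι] [DecidableEq ι]

/-! ### The explicit generations -/

/-- the state depends only on the scales above -/
theorem st_congr {n : ℕ} {M : ℕ → ℝ} {X X' : ℕ → ℤ → Matrix ι ι ℝ} (d : ℕ) (hd : d ≤ n)
    (h : ∀ j, n < j + d → j ≤ n → ∀ i, X j i = X' j i) : ∀ i, st n M X d i = st n M X' d i := by
  induction d with
  | zero => intro i; rfl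
  | succ d ih =>
    intro i
    have ih' := ih (by omega) fun j h1 h2 i => h j (by omega) h2 i
    have h' := h (n - d) (by omega) (by omega) (i / 2)
    simp only [st, ih', h']

theorem gn_st (n : ℕ) (M : ℕ → ℝ) (X : ℕ → ℤ → Matrix ι ι ℝ) :
    Gn n M X (fun k m => (st n M X (n - k) m).1) (fun g k m => (st n M X (n - k) m).2 g) := by
  refine ⟨?_, ?_, ?_, ?_, ?_, ?_⟩
  · intro g m
    simp only [Nat.sub_self, st]
  · intro m
    simp only [Nat.sub_self, st]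
  · intro k hk m g
    have e : n - k = (n - (k + 1)) + 1 := by omega
    have e2 : n - (n - (k + 1)) = k + 1 := by omega
    have d1 : (2 * m) / 2 = m := by omega
    have d3 : (2 * m) % 2 = 0 := by omega
    simp only [e, st, d1, d3, if_true, e2]
  · intro k hk m g
    have e : n - k = (n - (k + 1)) + 1 := by omega
    have e2 : n - (n - (k + 1)) = k + 1 := by omega
    have d1 : (2 * m + 1) / 2 = m := by omega
    have d3 : ¬ (2 * m + 1) % 2 = 0 := by omega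
    simp only [e, st, d1, if_neg d3, e2]
  · intro k hk m i hi hc
    have e : n - k = (n - (k + 1)) + 1 := by omega
    simp only [e] at hc ⊢
    rw [st] at hc ⊢
    simp only [hi] at hc ⊢
    rw [if_pos hc]
  · intro k hk m i hi hc
    have e : n - k = (n - (k + 1)) + 1 := by omega
    simp only [e] at hc ⊢
    rw [st] at hc ⊢
    simp only [hi] at hc ⊢
    rw [if_neg (not_le.2 hc)]

/-! ### Orthogonality on the tree -/

theorem tsum_nsq_nonneg (Y : ℕ → ℤ → Matrix ι ι ℝ) (w : ι → ℝ) (k : ℕ) (m : ℤ) :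
    0 ≤ H420.tsum (fun j i => nsq (Y j i *ᵥ w)) k m :=
  tsum_nn (fun _ _ => nsq_nonneg _) k m

theorem path_energy {n : ℕ} {P Y : ℕ → ℤ → Matrix ι ι ℝ}
    (hl : ∀ k < n, ∀ m, P k (2 * m) = P (k + 1) m + Y (k + 1) m)
    (hr : ∀ k < n, ∀ m, P k (2 * m + 1) = P (k + 1) m - Y (k + 1) m) (w : ι → ℝ) :
    ∀ k ≤ n, ∀ m, tmean (fun i => nsq (P 0 i *ᵥ w)) k m =
      nsq (P k m *ᵥ w) + H420.tsum (fun j i => nsq (Y j i *ᵥ w)) k m := by
  intro k
  induction k with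
  | zero => intro _ m; simp [tmean, H420.tsum]
  | succ k ih =>
    intro hk m
    have h1 := ih (by omega) (2 * m)
    have h2 := ih (by omega) (2 * m + 1)
    rw [hl k (by omega), add_mulVec, H43.nsq_add] at h1
    rw [hr k (by omega), sub_mulVec, H43.nsq_sub] at h2
    rw [tmean, h1, h2, H420.tsum]
    ring

/-! ### The signs of a generation -/

/-- the sign of the tree at the point `x3` -/
def thS (s : ℕ → ℤ → ℤ → ℝ) (x3 : ℤ) (j : ℕ) (i : ℤ) : ℝ := s j i (ix j x3) * hs j x3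

theorem thS_le {s : ℕ → ℤ → ℤ → ℝ} (hs1 : ∀ k a b, |s k a b| ≤ 1) (x3 : ℤ) (j : ℕ) (i : ℤ) :
    |thS s x3 j i| ≤ 1 := by
  unfold thS
  rw [abs_mul, PL.abs_hs, mul_one]
  exact hs1 _ _ _

theorem MT_eq_MX (l : ℝ) (Kq : ℕ → ℤ → Matrix ι ι ℝ) (k : ℕ) (m : ℤ) :
    MT l Kq k m = MX l Kq k m := by
  unfold H677.MT H690.MX
  rw [Matrix.mul_assoc]

/-- the tree of the slot at the points `x1`, `x3` -/
def XS (l : ℝ) (n : ℕ) (Kq : ℕ → ℤ → Matrix ι ι ℝ) (o x1 : ℤ) (s : ℕ → ℤ → ℤ → ℝ) (x3 : ℤ) :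
    ℕ → ℤ → Matrix ι ι ℝ :=
  XT l n Kq (thS s x3) (o - 2) x1 x3

theorem XS_eq {l : ℝ} {n : ℕ} {Kq : ℕ → ℤ → Matrix ι ι ℝ} {o x1 : ℤ} {s : ℕ → ℤ → ℤ → ℝ} {x3 : ℤ}
    {k : ℕ} (hk : k ≤ n) (m : ℤ) :
    XS l n Kq o x1 s x3 k m = (s k m (ix k x3) * hs k x3) • MT l Kq k (ck o x1 x3 k - m) := by
  unfold XS H690.XT thS H922.ck
  rw [if_pos hk, MT_eq_MX]
  congr 2
  unfold ix
  ring

theorem XS_congr {l : ℝ} {n : ℕ} {Kq : ℕ → ℤ → Matrix ι ι ℝ} {o x1 : ℤ} {s : ℕ → ℤ → ℤ → ℝ}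
    {x3 y3 : ℤ} {k : ℕ} (h : ix k x3 = ix k y3) {j : ℕ} (hj : k < j) (hjn : j ≤ n) (i : ℤ) :
    XS l n Kq o x1 s x3 j i = XS l n Kq o x1 s y3 j i := by
  obtain ⟨j, rfl⟩ : ∃ j', j = j' + 1 := ⟨j - 1, by omega⟩
  have h1 : ix j x3 = ix j y3 := ix_le (by omega) h
  have h2 : ix (j + 1) x3 = ix (j + 1) y3 := ix_le (by omega) h
  rw [XS_eq hjn, XS_eq hjn, h2, hs_ix h1]
  unfold H922.ck
  rw [h2]

variable (l : ℝ) (n : ℕ) (Kq : ℕ → ℤ → Matrix ι ι ℝ) (M : ℕ → ℝ) (o x1 : ℤ)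
  (s : ℕ → ℤ → ℤ → ℝ)

/-- the generation at the cells `a` of `x0` and `b` of `x3` -/
def gmm (k : ℕ) (a b : ℤ) : ℕ := (st n M (XS l n Kq o x1 s (2 ^ k * b)) (n - k) a).1

/-- the signs of the generation `g` -/
def sG (g : ℕ) (k : ℕ) (a b : ℤ) : ℝ := if gmm l n Kq M o x1 s k a b = g then s k a b else 0

variable {l n Kq M o x1 s}

theorem gmm_eq {k : ℕ} (hk : k ≤ n) (a x3 : ℤ) :
    gmm l n Kq M o x1 s k a (ix k x3) = (st n M (XS l n Kq o x1 s x3) (n - k) a).1 := by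
  unfold gmm
  rw [st_congr (X' := XS l n Kq o x1 s x3) (n - k) (by omega) fun j h1 h2 i =>
    XS_congr (k := k) (ix_two k _) (by omega) h2 i]

theorem sG_le (hs1 : ∀ k a b, |s k a b| ≤ 1) (g k : ℕ) (a b : ℤ) :
    |sG l n Kq M o x1 s g k a b| ≤ 1 := by
  unfold sG
  split_ifs
  · exact hs1 _ _ _
  · simp

/-- the slot of the generation `g` is the path of the generation `g` -/
theorem Rm_gen (g : ℕ) (x3 : ℤ) : ∀ d k, k + d = n → ∀ x0,
    H841.Rm (MT l Kq) o x1 (sG l n Kq M o x1 s g) n k x0 x3 =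
      (st n M (XS l n Kq o x1 s x3) (n - k) (ix k x0)).2 g := by
  have hG := gn_st n M (XS l n Kq o x1 s x3)
  intro d
  induction d with
  | zero =>
    intro k hk x0
    obtain rfl : k = n := by omega
    have := hG.topR g (ix k x0)
    rw [this]
    unfold H841.Rm
    rw [Ico_self, sum_empty]
  | succ d ih =>
    intro k hk x0
    have hkn : k < n := by omega
    have e0 : H841.Rm (MT l Kq) o x1 (sG l n Kq M o x1 s g) n k x0 x3 =
        H841.Lm (MT l Kq) o x1 (sG l n Kq M o x1 s g) (k + 1) x0 x3 +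
          H841.Rm (MT l Kq) o x1 (sG l n Kq M o x1 s g) n (k + 1) x0 x3 := by
      unfold H841.Rm
      rw [sum_eq_sum_Ico_succ_bot hkn]
    rw [e0, ih (k + 1) (by omega) x0]
    have e2 : ix (k + 1) x0 = ix k x0 / 2 := H841.ix_half k x0
    have eg := gmm_eq (l := l) (n := n) (Kq := Kq) (M := M) (o := o) (x1 := x1) (s := s)
      (show k + 1 ≤ n by omega) (ix (k + 1) x0) x3
    have eL : H841.Lm (MT l Kq) o x1 (sG l n Kq M o x1 s g) (k + 1) x0 x3 =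
        hs (k + 1) x0 • (if (st n M (XS l n Kq o x1 s x3) (n - (k + 1)) (ix (k + 1) x0)).1 = g then
          XS l n Kq o x1 s x3 (k + 1) (ix (k + 1) x0) else 0) := by
      unfold H841.Lm sG
      rw [eg]
      split_ifs
      · rw [XS_eq (show k + 1 ≤ n by omega), smul_smul]
        congr 1
        ring
      · rw [zero_mul, zero_smul, smul_zero]
    rw [eL]
    rcases Gn.two_cases (ix k x0) with e | e
    · have h1 := hG.left k hkn (ix k x0 / 2) g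
      rw [← e, ← e2] at h1
      have e3 : hs (k + 1) x0 = 1 := by
        unfold PL.hs
        rw [Nat.add_sub_cancel, if_pos (by omega)]
      rw [e3, one_smul]
      beta_reduce at h1
      rw [h1, add_comm]
    · have h1 := hG.right k hkn (ix k x0 / 2) g
      rw [← e, ← e2] at h1
      have e3 : hs (k + 1) x0 = -1 := by
        unfold PL.hs
        rw [Nat.add_sub_cancel, if_neg (by omega)]
      rw [e3]
      beta_reduce at h1
      rw [h1, neg_smul, one_smul, sub_eq_add_neg, add_comm]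

/-- the generations exhaust the signs -/
theorem sG_sum {k : ℕ} (hk : k ≤ n) (a b : ℤ) :
    ∑ g ∈ range (n + 1), sG l n Kq M o x1 s g k a b = s k a b := by
  have h1 := (gn_st n M (XS l n Kq o x1 s (2 ^ k * b))).count k hk a
  unfold sG
  rw [sum_ite_eq, if_pos]
  rw [mem_range]
  unfold gmm
  beta_reduce at h1
  omega

/-- **the sum of the slots** -/
theorem Rm_sum (k : ℕ) (x0 x3 : ℤ) :
    ∑ g ∈ range (n + 1), H841.Rm (MT l Kq) o x1 (sG l n Kq M o x1 s g) n k x0 x3 =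
      H841.Rm (MT l Kq) o x1 s n k x0 x3 := by
  unfold H841.Rm
  rw [sum_comm]
  refine sum_congr rfl fun i hi => ?_
  have hi' : i + 1 ≤ n := by have := (mem_Ico.1 hi).2; omega
  unfold H841.Lm
  rw [← sum_smul, ← sum_mul, sG_sum hi']

/-! ### Cap and energies -/

section props

variable {G : ℕ → ℤ → Matrix ι ι ℝ} (hT : H420.Tr l n G Kq) (hs1 : ∀ k a b, |s k a b| ≤ 1)
  (ho : o = 1 ∨ o = -1)

include hT in
theorem Rm_symm (g : ℕ) {k : ℕ} (hk : k ≤ n) (x0 x3 : ℤ) :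
    (H841.Rm (MT l Kq) o x1 (sG l n Kq M o x1 s g) n k x0 x3)ᵀ =
      H841.Rm (MT l Kq) o x1 (sG l n Kq M o x1 s g) n k x0 x3 := by
  rw [Rm_gen g x3 (n - k) k (by omega) x0]
  exact (gn_st n M (XS l n Kq o x1 s x3)).symm (XT_symm hT) g k hk _

include hT hs1 ho in
/-- **the cap of a generation** -/
theorem Rm_cap {κ : ℕ → ℝ} (hκ : ∀ g, 0 < κ g) (g : ℕ) {k : ℕ} (hk : k ≤ n) (x0 x3 : ℤ)
    (w : ι → ℝ) :
    nsq (H841.Rm (MT l Kq) o x1 (sG l n Kq (fun g => κ g ^ 6) o x1 s g) n k x0 x3 *ᵥ w) ≤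
      (κ g + 1) ^ 2 * nsq w := by
  rw [Rm_gen g x3 (n - k) k (by omega) x0]
  have hG := gn_st n (fun g => κ g ^ 6) (XS l n Kq o x1 s x3)
  have hM : ∀ g, 0 ≤ (fun g => κ g ^ 6) g := fun g => (pow_pos (hκ g) 6).le
  exact hG.op_le hM (XT_symm hT) (fun k hk m v => XT_op hT (thS_le hs1 x3) hk m v) (hκ g).le rfl w
    k hk _

theorem ix_zero (x : ℤ) : ix 0 x = x := by
  unfold ix
  norm_num

/-- the energy of a generation at the end -/
theorem Rm_energy (g : ℕ) (t x3 : ℤ) (w : ι → ℝ) :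
    ∑ x0 ∈ iv n t, nsq (H841.Rm (MT l Kq) o x1 (sG l n Kq M o x1 s g) n 0 x0 x3 *ᵥ w) =
      2 ^ n * H420.tsum (fun j i =>
        (if (st n M (XS l n Kq o x1 s x3) (n - j) i).1 = g then 1 else 0) *
          nsq (XS l n Kq o x1 s x3 j i *ᵥ w)) n t := by
  have hG := gn_st n M (XS l n Kq o x1 s x3)
  have h1 := path_energy (n := n)
    (P := fun k m => (st n M (XS l n Kq o x1 s x3) (n - k) m).2 g)
    (Y := fun k m => if (st n M (XS l n Kq o x1 s x3) (n - k) m).1 = g then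
      XS l n Kq o x1 s x3 k m else 0)
    (fun k hk m => hG.left k hk m g) (fun k hk m => hG.right k hk m g) w n le_rfl t
  have h0 := hG.topR g t
  beta_reduce at h0 h1
  rw [h0, zero_mulVec] at h1
  have e0 : nsq (0 : ι → ℝ) = 0 := H841.nsq_zero
  rw [e0, zero_add] at h1
  have h2 := tmean_iv (fun i => nsq ((st n M (XS l n Kq o x1 s x3) (n - 0) i).2 g *ᵥ w)) n t
  rw [← h2.trans (sum_congr rfl fun x0 _ => ?_), h1]
  · congr 2
    funext j i
    split_ifs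
    · rw [one_mul]
    · rw [zero_mulVec, e0, zero_mul]
  · rw [Rm_gen g x3 n 0 (by omega) x0, ix_zero]

/-- the energy of the whole slot at the end -/
theorem Rm_energy_all (t x3 : ℤ) (w : ι → ℝ) :
    ∑ x0 ∈ iv n t, nsq (H841.Rm (MT l Kq) o x1 s n 0 x0 x3 *ᵥ w) =
      2 ^ n * H420.tsum (fun j i => nsq (XS l n Kq o x1 s x3 j i *ᵥ w)) n t := by
  have hG := gn_st n (fun _ => 0) (XS l n Kq o x1 s x3)
  have h1 := path_energy (n := n)
    (P := fun k m => ∑ g ∈ range (n + 1), (st n (fun _ => 0) (XS l n Kq o x1 s x3) (n - k) m).2 g)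
    (Y := fun k m => XS l n Kq o x1 s x3 k m)
    (fun k hk m => (hG.sum_R hk m).1) (fun k hk m => (hG.sum_R hk m).2) w n le_rfl t
  have h0 : ∑ g ∈ range (n + 1), (st n (fun _ => 0) (XS l n Kq o x1 s x3) (n - n) t).2 g = 0 :=
    sum_eq_zero fun g _ => hG.topR g t
  beta_reduce at h1
  rw [h0, zero_mulVec, H841.nsq_zero, zero_add] at h1
  have h2 := tmean_iv (fun i => nsq ((∑ g ∈ range (n + 1),
    (st n (fun _ => 0) (XS l n Kq o x1 s x3) (n - 0) i).2 g) *ᵥ w)) n t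
  rw [← h2.trans (sum_congr rfl fun x0 _ => ?_), h1]
  have e : H841.Rm (MT l Kq) o x1 s n 0 x0 x3 =
      ∑ g ∈ range (n + 1), (st n (fun _ => 0) (XS l n Kq o x1 s x3) (n - 0) x0).2 g := by
    rw [← Rm_sum (l := l) (Kq := Kq) (M := fun _ => 0) 0 x0 x3]
    refine sum_congr rfl fun g _ => ?_
    rw [Rm_gen g x3 n 0 (by omega) x0, ix_zero]
  rw [e]

/-- the energy of a generation is at most that of the whole slot -/
theorem Rm_energy_le (g : ℕ) (t x3 : ℤ) (w : ι → ℝ) :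
    ∑ x0 ∈ iv n t, nsq (H841.Rm (MT l Kq) o x1 (sG l n Kq M o x1 s g) n 0 x0 x3 *ᵥ w) ≤
      ∑ x0 ∈ iv n t, nsq (H841.Rm (MT l Kq) o x1 s n 0 x0 x3 *ᵥ w) := by
  rw [Rm_energy, Rm_energy_all]
  refine mul_le_mul_of_nonneg_left ?_ (by positivity)
  refine H483.tsum_mono (n := n) (fun j _ i => ?_) n le_rfl t
  have h1 := nsq_nonneg (XS l n Kq o x1 s x3 (j + 1) i *ᵥ w)
  split_ifs
  · linarith
  · linarith

include hT hs1 ho in
/-- **the energy of a later generation, by the top trace alone** -/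
theorem Rm_energy_next {κ : ℕ → ℝ} (hκ : ∀ g, 0 < κ g) (g : ℕ) (t x3 : ℤ) (w : ι → ℝ) :
    ∑ x0 ∈ iv n t, nsq (H841.Rm (MT l Kq) o x1
        (sG l n Kq (fun g => κ g ^ 6) o x1 s (g + 1)) n 0 x0 x3 *ᵥ w) ≤
      3 * nsq w * (2520000 * (∑ a, ∑ x0 ∈ iv n t,
        nsq (H841.Rm (MT l Kq) o x1 s n 0 x0 x3 *ᵥ Pi.single a 1)) / κ g ^ 6) := by
  have hc : -3 ≤ o - 2 ∧ o - 2 ≤ -1 := by rcases ho with h | h <;> omega
  have hG := gn_st n (fun g => κ g ^ 6) (XS l n Kq o x1 s x3)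
  have hth := thS_le (s := s) hs1 x3
  have h1 := hG.energy (g + 1) (f := fun j i => nsq (XS l n Kq o x1 s x3 j i *ᵥ w))
    (fun j i => nsq_nonneg _) (E := 3 * nsq w) (mul_nonneg (by norm_num) (nsq_nonneg w))
    (fun k _ m => XT_sum_le' hT hth hc.1 hc.2 w k m) n le_rfl t
  have h2 := prob_top hG (by norm_num : (0 : ℝ) < 3) (fun g => pow_pos (hκ g) 6)
    (XT_symm hT) (XT_psd (x1 := x1) (x3 := x3) hT hth hc.1 hc.2) g t
  have h3 := mul_le_mul_of_nonneg_left h2 (mul_nonneg (by norm_num : (0 : ℝ) ≤ 3) (nsq_nonneg w))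
  rw [Rm_energy]
  have h4 : (2 : ℝ) ^ n * (Qs (XS l n Kq o x1 s x3) n t).trace =
      ∑ a, ∑ x0 ∈ iv n t, nsq (H841.Rm (MT l Kq) o x1 s n 0 x0 x3 *ᵥ Pi.single a 1) := by
    unfold XS
    rw [Qs_trace_eq (XT_symm hT), mul_sum]
    refine sum_congr rfl fun a _ => ?_
    exact (Rm_energy_all (l := l) (Kq := Kq) (o := o) (x1 := x1) (s := s) t x3 _).symm
  rw [← h4]
  have h5 := mul_le_mul_of_nonneg_left (h1.trans h3) (by positivity : (0 : ℝ) ≤ 2 ^ n)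
  refine h5.trans (le_of_eq ?_)
  ring

/-- mean over the two halves in `x0` -/
theorem Rm_mart0 (s : ℕ → ℤ → ℤ → ℝ) (Mx : ℕ → ℤ → Matrix ι ι ℝ) (x3 : ℤ) (w : ι → ℝ) :
    H483.Mart n (fun j m => H841.Rm Mx o x1 s n j (2 ^ j * m) x3 *ᵥ w) := by
  intro j hj m
  have h2 : ix (j + 1) ((2 : ℤ) ^ j * (2 * m)) = m := by
    rw [show (2 : ℤ) ^ j * (2 * m) = 2 ^ (j + 1) * m by ring, ix_two]
  have h3 : ix (j + 1) ((2 : ℤ) ^ j * (2 * m + 1)) = m := by
    rw [← H352.ix_succ, ix_two]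
    omega
  have h4 : hs (j + 1) ((2 : ℤ) ^ j * (2 * m)) = 1 := by
    unfold PL.hs
    rw [Nat.add_sub_cancel, ix_two, if_pos (by omega)]
  have h5 : hs (j + 1) ((2 : ℤ) ^ j * (2 * m + 1)) = -1 := by
    unfold PL.hs
    rw [Nat.add_sub_cancel, ix_two, if_neg (by omega)]
  have tail : ∀ x0 y0 : ℤ, ix (j + 1) x0 = ix (j + 1) y0 →
      H841.Rm Mx o x1 s n (j + 1) x0 x3 = H841.Rm Mx o x1 s n (j + 1) y0 x3 := by
    intro x0 y0 h
    unfold H841.Rm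
    refine sum_congr rfl fun i hi => ?_
    have hi' := (mem_Ico.1 hi).1
    have a0 := ix_le hi' h
    have b0 := ix_le (Nat.le_succ i) a0
    unfold H841.Lm
    rw [b0, hs_ix a0]
  have t1 := tail ((2 : ℤ) ^ j * (2 * m)) (2 ^ (j + 1) * m) (by rw [h2, ix_two])
  have t2 := tail ((2 : ℤ) ^ j * (2 * m + 1)) (2 ^ (j + 1) * m) (by rw [h3, ix_two])
  have step : ∀ x0 : ℤ, H841.Rm Mx o x1 s n j x0 x3 =
      H841.Lm Mx o x1 s (j + 1) x0 x3 + H841.Rm Mx o x1 s n (j + 1) x0 x3 := by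
    intro x0
    unfold H841.Rm
    rw [sum_eq_sum_Ico_succ_bot hj]
  beta_reduce
  rw [step ((2 : ℤ) ^ j * (2 * m)), step ((2 : ℤ) ^ j * (2 * m + 1)), t1, t2, add_mulVec,
    add_mulVec]
  have e : H841.Lm Mx o x1 s (j + 1) ((2 : ℤ) ^ j * (2 * m)) x3 =
      -H841.Lm Mx o x1 s (j + 1) ((2 : ℤ) ^ j * (2 * m + 1)) x3 := by
    unfold H841.Lm
    rw [h2, h3, h4, h5]
    rw [← neg_smul]
    congr 1
    ring
  rw [e, neg_mulVec]
  module

/-- mean over the two halves in `x3` -/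
theorem Rm_mart3 (s : ℕ → ℤ → ℤ → ℝ) (Mx : ℕ → ℤ → Matrix ι ι ℝ) (x0 : ℤ) (w : ι → ℝ) :
    H483.Mart n (fun j m => H841.Rm Mx o x1 s n j x0 (2 ^ j * m) *ᵥ w) := by
  intro j hj m
  have h2 : ix (j + 1) ((2 : ℤ) ^ j * (2 * m)) = m := by
    rw [show (2 : ℤ) ^ j * (2 * m) = 2 ^ (j + 1) * m by ring, ix_two]
  have h3 : ix (j + 1) ((2 : ℤ) ^ j * (2 * m + 1)) = m := by
    rw [← H352.ix_succ, ix_two]
    omega
  have h4 : hs (j + 1) ((2 : ℤ) ^ j * (2 * m)) = 1 := by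
    unfold PL.hs
    rw [Nat.add_sub_cancel, ix_two, if_pos (by omega)]
  have h5 : hs (j + 1) ((2 : ℤ) ^ j * (2 * m + 1)) = -1 := by
    unfold PL.hs
    rw [Nat.add_sub_cancel, ix_two, if_neg (by omega)]
  have tail : ∀ x y : ℤ, ix (j + 1) x = ix (j + 1) y →
      H841.Rm Mx o x1 s n (j + 1) x0 x = H841.Rm Mx o x1 s n (j + 1) x0 y := by
    intro x y h
    unfold H841.Rm
    refine sum_congr rfl fun i hi => ?_
    have hi' := (mem_Ico.1 hi).1
    have a0 := ix_le hi' h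
    have b0 := ix_le (Nat.le_succ i) a0
    unfold H841.Lm H922.ck
    rw [b0, hs_ix a0]
  have t1 := tail ((2 : ℤ) ^ j * (2 * m)) (2 ^ (j + 1) * m) (by rw [h2, ix_two])
  have t2 := tail ((2 : ℤ) ^ j * (2 * m + 1)) (2 ^ (j + 1) * m) (by rw [h3, ix_two])
  have step : ∀ x : ℤ, H841.Rm Mx o x1 s n j x0 x =
      H841.Lm Mx o x1 s (j + 1) x0 x + H841.Rm Mx o x1 s n (j + 1) x0 x := by
    intro x
    unfold H841.Rm
    rw [sum_eq_sum_Ico_succ_bot hj]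
  beta_reduce
  rw [step ((2 : ℤ) ^ j * (2 * m)), step ((2 : ℤ) ^ j * (2 * m + 1)), t1, t2, add_mulVec,
    add_mulVec]
  have e : H841.Lm Mx o x1 s (j + 1) x0 ((2 : ℤ) ^ j * (2 * m)) =
      -H841.Lm Mx o x1 s (j + 1) x0 ((2 : ℤ) ^ j * (2 * m + 1)) := by
    unfold H841.Lm H922.ck
    rw [h2, h3, h4, h5]
    rw [← neg_smul]
    congr 1
    ring
  rw [e, neg_mulVec]
  module

end props

/-! ### The slot `RT` -/

section slot

variable {Al : ℕ → Pt → Prop} {K : ℕ} {P : Pt} {sg : ℕ → Pt → ℝ} {u : ℤ → ℤ → ι → ℝ}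

/-- the signs of `RT` at the label point `x1` -/
def s0 (Al : ℕ → Pt → Prop) (o : ℤ) (K : ℕ) (P : Pt) (sg : ℕ → Pt → ℝ) (x1 : ℤ) (k : ℕ)
    (a b : ℤ) : ℝ :=
  if ((b, o - 2 - a - ix k x1 - b, ix k x1) : Pt) ∈ sN Al o K P (2 ^ k * a) k then
    sg k (rv ((b, o - 2 - a - ix k x1 - b, ix k x1) : Pt)) * hs k x1 else 0

theorem s0_le (hsg : ∀ k m, |sg k m| ≤ 1) (x1 : ℤ) (k : ℕ) (a b : ℤ) :
    |s0 Al o K P sg x1 k a b| ≤ 1 := by
  unfold s0
  split_ifs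
  · rw [abs_mul, PL.abs_hs, mul_one]
    exact hsg _ _
  · simp

theorem s0_ix (x0 x3 : ℤ) (k : ℕ) :
    s0 Al o K P sg x1 k (ix k x0) (ix k x3) * (hs k x0 * hs k x3) =
      thN Al o K P sg x0 x3 x1 k := by
  have e1 : nd3 o x0 x3 x1 k = ((ix k x3, o - 2 - ix k x0 - ix k x1 - ix k x3, ix k x1) : Pt) := by
    unfold H677.nd3 H677.cP
    rfl
  have e2 : sN Al o K P (2 ^ k * ix k x0) k = sN Al o K P x0 k := H677.sN_ix (ix_two k _)
  unfold s0 H677.thN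
  rw [e1, e2]
  split_ifs
  · ring
  · ring

/-- **`RT` in the letters of `H841`** -/
theorem RT_Rm (l : ℝ) (u : ℤ → ℤ → ι → ℝ) (j : ℕ) (x0 x3 x1 : ℤ) :
    RT Al o K P sg l u j x0 x3 x1 =
      H841.Rm (MT l (KT l u x1)) o x1 (s0 Al o K P sg x1) K j x0 x3 := by
  unfold H677.RT H841.Rm
  refine sum_congr rfl fun i _ => ?_
  unfold H841.Lm
  rw [s0_ix]
  congr 2
  unfold H677.nd3 H677.cP H922.ck
  ring

/-- the signs of the generation `g` of `RT` at the label point `x1` -/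
def sgn (Al : ℕ → Pt → Prop) (o : ℤ) (K : ℕ) (P : Pt) (sg : ℕ → Pt → ℝ) (l : ℝ)
    (u : ℤ → ℤ → ι → ℝ) (κ : ℕ → ℝ) (g : ℕ) (x1 : ℤ) : ℕ → ℤ → ℤ → ℝ :=
  sG l K (KT l u x1) (fun g => κ g ^ 6) o x1 (s0 Al o K P sg x1) g

/-- **the slot of the generation `g`** -/
def RG (Al : ℕ → Pt → Prop) (o : ℤ) (K : ℕ) (P : Pt) (sg : ℕ → Pt → ℝ) (l : ℝ)
    (u : ℤ → ℤ → ι → ℝ) (κ : ℕ → ℝ) (g j : ℕ) (x0 x3 x1 : ℤ) : Matrix ι ι ℝ :=
  H841.Rm (MT l (KT l u x1)) o x1 (sgn Al o K P sg l u κ g x1) K j x0 x3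

variable {κ : ℕ → ℝ}

theorem sgn_le (hsg : ∀ k m, |sg k m| ≤ 1) (g : ℕ) (x1 : ℤ) (k : ℕ) (a b : ℤ) :
    |sgn Al o K P sg l u κ g x1 k a b| ≤ 1 := sG_le (s0_le hsg x1) g k a b

/-- the signs of a generation vanish where the node is not alive -/
theorem sgn_off (g : ℕ) (x1 : ℤ) (k : ℕ) (a b : ℤ)
    (h : ((b, o - 2 - a - ix k x1 - b, ix k x1) : Pt) ∉ sN Al o K P (2 ^ k * a) k) :
    sgn Al o K P sg l u κ g x1 k a b = 0 := by
  unfold sgn sG s0
  rw [if_neg h, ite_self]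

/-- the signs of a generation are those of `RT` or zero -/
theorem sgn_or (g : ℕ) (x1 : ℤ) (k : ℕ) (a b : ℤ) :
    sgn Al o K P sg l u κ g x1 k a b = s0 Al o K P sg x1 k a b ∨
      sgn Al o K P sg l u κ g x1 k a b = 0 := by
  unfold sgn sG
  split_ifs
  · exact Or.inl rfl
  · exact Or.inr rfl

/-- **`RT` is the sum of the generations** -/
theorem RG_sum (j : ℕ) (x0 x3 x1 : ℤ) :
    ∑ g ∈ range (K + 1), RG Al o K P sg l u κ g j x0 x3 x1 = RT Al o K P sg l u j x0 x3 x1 := by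
  rw [RT_Rm]
  exact Rm_sum j x0 x3

theorem RG_symm (hl : 0 < l) (g : ℕ) {j : ℕ} (hj : j ≤ K) (x0 x3 x1 : ℤ) :
    (RG Al o K P sg l u κ g j x0 x3 x1)ᵀ = RG Al o K P sg l u κ g j x0 x3 x1 :=
  Rm_symm (H677.tr_T hl K u x1) g hj x0 x3

/-- **the cap** -/
theorem RG_cap (hl : 0 < l) (ho : o = 1 ∨ o = -1) (hsg : ∀ k m, |sg k m| ≤ 1)
    (hκ : ∀ g, 0 < κ g) (g : ℕ) {j : ℕ} (hj : j ≤ K) (x0 x3 x1 : ℤ) (w : ι → ℝ) :
    nsq (RG Al o K P sg l u κ g j x0 x3 x1 *ᵥ w) ≤ (κ g + 1) ^ 2 * nsq w :=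
  Rm_cap (H677.tr_T hl K u x1) (s0_le hsg x1) ho hκ g hj x0 x3 w

/-- **the energy, every generation** -/
theorem RG_end (hl : 0 < l) (hsg : ∀ k m, |sg k m| ≤ 1) (g : ℕ) (T : Finset ℤ) (x3 x1 : ℤ)
    (w : ι → ℝ) :
    ∑ t ∈ T, ∑ x0 ∈ iv K t, nsq (RG Al o K P sg l u κ g 0 x0 x3 x1 *ᵥ w) ≤
      2 ^ K * ((2 * l)⁻¹ * (w ⬝ᵥ GT u x1 K P.2.1 *ᵥ w)) := by
  refine le_trans (sum_le_sum fun t _ => ?_)
    (H483.RT_end (A := Al) (o := o) (M := P) hl hsg T x3 x1 w)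
  refine (Rm_energy_le g t x3 w).trans (le_of_eq (sum_congr rfl fun x0 _ => ?_))
  rw [RT_Rm]
  rfl

/-- **the energy of a later generation, by the top trace alone** -/
theorem RG_next (hl : 0 < l) (ho : o = 1 ∨ o = -1) (hsg : ∀ k m, |sg k m| ≤ 1)
    (hκ : ∀ g, 0 < κ g) (g : ℕ) (T : Finset ℤ) (x3 x1 : ℤ) (w : ι → ℝ) :
    ∑ t ∈ T, ∑ x0 ∈ iv K t, nsq (RG Al o K P sg l u κ (g + 1) 0 x0 x3 x1 *ᵥ w) ≤
      3 * nsq w * (2520000 * (2 ^ K * ((2 * l)⁻¹ * (GT u x1 K P.2.1).trace)) / κ g ^ 6) := by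
  have h1 := sum_le_sum fun t (_ : t ∈ T) => Rm_energy_next (x1 := x1) (H677.tr_T hl K u x1)
    (s0_le (Al := Al) (o := o) (K := K) (P := P) hsg x1) ho hκ g t x3 w
  refine h1.trans ?_
  rw [← mul_sum]
  refine mul_le_mul_of_nonneg_left ?_ (mul_nonneg (by norm_num) (nsq_nonneg w))
  rw [← sum_div, ← mul_sum]
  refine div_le_div_of_nonneg_right (mul_le_mul_of_nonneg_left ?_ (by norm_num))
    (pow_pos (hκ g) 6).le
  rw [sum_comm]
  have h2 : ∀ a : ι, ∑ t ∈ T, ∑ x0 ∈ iv K t, nsq (H841.Rm (MT l (KT l u x1)) o x1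
      (s0 Al o K P sg x1) K 0 x0 x3 *ᵥ Pi.single a 1) ≤
      2 ^ K * ((2 * l)⁻¹ * ((Pi.single a (1 : ℝ) : ι → ℝ) ⬝ᵥ GT u x1 K P.2.1 *ᵥ
        Pi.single a 1)) := by
    intro a
    refine le_trans (le_of_eq (sum_congr rfl fun t _ => sum_congr rfl fun x0 _ => ?_))
      (H483.RT_end (A := Al) (o := o) (M := P) hl hsg T x3 x1 (Pi.single a 1))
    rw [RT_Rm]
    rfl
  refine (sum_le_sum fun a _ => h2 a).trans (le_of_eq ?_)
  rw [← mul_sum, ← mul_sum]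
  congr 2
  rw [Matrix.trace]
  refine sum_congr rfl fun a _ => ?_
  rw [mulVec_single_one, single_dotProduct, one_mul, col_apply, diag_apply]

end slot

end

end Vale.Agent.P141.H540
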