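import Vale.Agent.P141.H998.PDec
import Vale.Agent.P141.H865.Ker

/-!
# P141, line W, end lemma: the birth data of `H865.Bth` from the decomposition `H998.PDec`

`bthOf`: coefficients of the two sides with the balance `lam² = rC sd13 sd23 / sd12`, the parameters
of the plane process.  `nzB`: births with nonzero weight; the others have no main part.
`mainF_eq`: the main family in the letters of `H865.Ker`.
-/

namespace Vale.Agent.P141.H540

open Finset
open Vale.Agent.P141.PL (Pt)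
open Vale.Agent.P141.PL.H315 (Tri atm e12 e13 e23)
open Vale.Agent.P141.PL.H318 (a1)
open Vale.Agent.P141.H585 (VC mnA rC rC_nonneg sd12 sd13 sd23 sd12_nonneg sd13_nonneg sd23_nonneg
  thC lvS)
open Vale.Agent.P141.H829 (rst abs_rst_le rs3)
open Vale.Agent.P141.H865 (Bth Bth.mn mainO)
open Vale.Agent.P141.H998 (Bi thB mnB mainF)

noncomputable section

open scoped Classical

/-- the ratio and the three `L²` norms of a birth -/
def bW (b : Bi) : ℝ := rC b.1.1 b.1.2 b.2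
@[inherit_doc bW] def b12 (b : Bi) : ℝ := sd12 b.1.1 b.1.2 b.2
@[inherit_doc bW] def b13 (b : Bi) : ℝ := sd13 b.1.1 b.1.2 b.2
@[inherit_doc bW] def b23 (b : Bi) : ℝ := sd23 b.1.1 b.1.2 b.2

theorem bW_nonneg (b : Bi) : 0 ≤ bW b := rC_nonneg _ _ _
theorem b12_nonneg (b : Bi) : 0 ≤ b12 b := sd12_nonneg _ _ _
theorem b13_nonneg (b : Bi) : 0 ≤ b13 b := sd13_nonneg _ _ _
theorem b23_nonneg (b : Bi) : 0 ≤ b23 b := sd23_nonneg _ _ _

/-- births with nonzero weight -/
def nzB (b : Bi) : Prop := bW b * (b12 b * b13 b * b23 b) ≠ 0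

theorem nzB_pos {b : Bi} (h : nzB b) : 0 < bW b ∧ 0 < b12 b ∧ 0 < b13 b ∧ 0 < b23 b := by
  unfold nzB at h
  refine ⟨(bW_nonneg b).lt_of_ne' ?_, (b12_nonneg b).lt_of_ne' ?_, (b13_nonneg b).lt_of_ne' ?_,
    (b23_nonneg b).lt_of_ne' ?_⟩ <;> (intro h1; apply h; rw [h1]; ring)

/-- the balance of the two sides -/
def lamB (b : Bi) : ℝ := √(bW b * b13 b * b23 b / b12 b)

theorem lamB_pos {b : Bi} (h : nzB b) : 0 < lamB b := by
  obtain ⟨h0, h1, h2, h3⟩ := nzB_pos h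
  exact Real.sqrt_pos.2 (by positivity)

theorem lamB_sq {b : Bi} (h : nzB b) : lamB b ^ 2 = bW b * b13 b * b23 b / b12 b := by
  obtain ⟨h0, h1, h2, h3⟩ := nzB_pos h
  exact Real.sq_sqrt (by positivity)

/-- the level of the residual of a birth -/
def tauB (sg : ℝ) (b : Bi) : ℝ := sg * (bW b * b23 b)

/-- the energy level of the squares of the plane kernel of a birth -/
def enB (μ κ LG : ℝ) (b : Bi) : ℝ := 2 * (μ * bW b ^ 2 * b23 b ^ 2 / κ ^ 4) * LG

/-- **The birth data.** -/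
def bthOf (μ κ sg LG : ℝ) (cf : Bi → ℝ) (E : Bi → Finset ℤ × Finset ℤ × Finset ℤ) (v : Bi → Tri)
    (b : Bi) : Bth where
  K := b.1.1
  q := b.1.2
  v := v b
  th := thB μ b
  S1 := (E b).1
  S2 := (E b).2.1
  S3 := (E b).2.2
  a := lamB b * √|cf b|
  b := (SignType.sign (cf b) : ℝ) * √|cf b| / lamB b
  cp := enB μ κ LG b / tauB sg b ^ 4
  xi := tauB sg b ^ 2 / 4
  et := tauB sg b ^ 2 / 4

variable {μ κ sg LG : ℝ} {cf : Bi → ℝ} {E : Bi → Finset ℤ × Finset ℤ × Finset ℤ} {v : Bi → Tri}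
  {b : Bi}

theorem bth_th : (bthOf μ κ sg LG cf E v b).th =
    thC μ (bthOf μ κ sg LG cf E v b).K (bthOf μ κ sg LG cf E v b).q b.2 := rfl

theorem bth_mn (k : ℕ) : (bthOf μ κ sg LG cf E v b).mn k = mnB μ E v b k := rfl

theorem bth_ab (h : nzB b) :
    (bthOf μ κ sg LG cf E v b).a * (bthOf μ κ sg LG cf E v b).b = cf b := by
  have h1 := lamB_pos h
  have h2 : √|cf b| * √|cf b| = |cf b| := Real.mul_self_sqrt (abs_nonneg _)
  have h3 : (SignType.sign (cf b) : ℝ) * |cf b| = cf b := sign_mul_abs _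
  show lamB b * √|cf b| * ((SignType.sign (cf b) : ℝ) * √|cf b| / lamB b) = cf b
  calc _ = (SignType.sign (cf b) : ℝ) * (√|cf b| * √|cf b|) * (lamB b / lamB b) := by ring
    _ = _ := by rw [h2, h3, div_self h1.ne', mul_one]

theorem sign_sq_le (x : ℝ) : ((SignType.sign x : ℝ)) ^ 2 ≤ 1 := by
  rcases lt_trichotomy x 0 with h | h | h
  · rw [sign_neg h]; norm_num
  · rw [h]; norm_num
  · rw [sign_pos h]; norm_num

theorem bth_a_sq (h : nzB b) : (bthOf μ κ sg LG cf E v b).a ^ 2 =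
    bW b * b13 b * b23 b / b12 b * |cf b| := by
  show (lamB b * √|cf b|) ^ 2 = _
  rw [mul_pow, lamB_sq h, Real.sq_sqrt (abs_nonneg _)]

theorem bth_b_sq (h : nzB b) : (bthOf μ κ sg LG cf E v b).b ^ 2 ≤
    b12 b / (bW b * b13 b * b23 b) * |cf b| := by
  obtain ⟨h0, h1, h2, h3⟩ := nzB_pos h
  show ((SignType.sign (cf b) : ℝ) * √|cf b| / lamB b) ^ 2 ≤ _
  rw [div_pow, mul_pow, lamB_sq h, Real.sq_sqrt (abs_nonneg _), div_le_iff₀ (by positivity)]
  have e : b12 b / (bW b * b13 b * b23 b) * |cf b| * (bW b * b13 b * b23 b / b12 b) = |cf b| := by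
    field_simp
  rw [e]
  have := sign_sq_le (cf b)
  nlinarith [abs_nonneg (cf b)]

/-- a birth without weight has no main part -/
theorem mnB_zero (hv : VC κ b.1.1 b.1.2 b.2 (v b) (E b).1 (E b).2.1 (E b).2.2) (h : ¬ nzB b)
    (k : ℕ) (x : Pt) : atm (mnB μ E v b k) x = 0 := by
  unfold nzB at h
  rw [not_not, mul_eq_zero, mul_eq_zero, mul_eq_zero] at h
  have key : ∀ (d : ℤ × ℤ → ℝ) (n : ℝ) (F F' : Finset ℤ) (r : ℤ × ℤ),
      (∀ r, |d r| ≤ bW b ^ 2 * n / κ ^ 2) → (bW b = 0 ∨ n = 0) → rst F F' d r = 0 := by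
    intro d n F F' r hd h0
    have h1 : bW b ^ 2 * n / κ ^ 2 = 0 := by
      rcases h0 with h0 | h0 <;> rw [h0] <;> ring
    have h2 := (abs_rst_le F F' d r).trans (hd r)
    rw [h1] at h2
    exact abs_eq_zero.1 (le_antisymm h2 (abs_nonneg _))
  unfold atm e12 e13 e23 mnB mnA rs3
  simp only
  rcases h with h | (h | h) | h
  · rw [key _ _ _ _ (x.1, x.2.1) hv.hgt12 (Or.inl h)]; ring
  · rw [key _ _ _ _ (x.1, x.2.1) hv.hgt12 (Or.inr h)]; ring
  · rw [key _ _ _ _ (x.1, x.2.2) hv.hgt13 (Or.inr h)]; ring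
  · rw [key _ _ _ _ (x.2.1, x.2.2) hv.hgt23 (Or.inr h)]; ring

/-- **The main family in the letters of `H865.Ker`.** -/
theorem mainF_eq (c : Pt) {B : Finset Bi}
    (hv : ∀ b ∈ B, VC κ b.1.1 b.1.2 b.2 (v b) (E b).1 (E b).2.1 (E b).2.2) (k : ℕ) (z : ℤ) :
    mainF c μ B cf E v k z = mainO c (bthOf μ κ sg LG cf E v) (B.filter nzB) k z := by
  unfold mainF mainO
  have e1 : (B.filter nzB).filter (fun b => k ≤ (bthOf μ κ sg LG cf E v b).K) =
      (B.filter fun b => k ≤ b.1.1).filter nzB := by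
    rw [filter_filter, filter_filter]
    refine filter_congr fun b _ => ?_
    exact and_comm
  rw [e1, sum_filter (p := nzB)]
  refine sum_congr rfl fun b hb => ?_
  by_cases h : nzB b
  · rw [if_pos h, bth_ab h]
    rfl
  · rw [if_neg h]
    have h1 : a1 c b.1.1 (b.1.2, mnB μ E v b k) z = 0 := by
      rw [H585.a1_eq_pf]
      unfold H585.pf
      refine sum_eq_zero fun x _ => ?_
      split_ifs
      · exact mnB_zero (hv b (mem_filter.1 hb).1) h k x
      · rfl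
    rw [h1, mul_zero]

end

end Vale.Agent.P141.H540
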