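import Vale.Agent.P141.H970.Gen

/-!
# P141, line (A): the generations of the frozen path, probabilities by the top trace alone

* `Gn.prob_top` : `mean 1[γ ≥ g + 1] ≤ 280000 κ² tr (Qs X) / M g` at every cell with `γ < g` (or
  `γ = g` and `R g = 0`), for every generation `g`.  The start cells of a generation are disjoint
  and the trace of the square function is a tree supermean, so no bound of the traces below the
  top cell is needed.
* `gen_top` : the flow matrices, real ties, the trace at the top scale only.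
-/

namespace Vale.Agent.P141.H540

open Matrix Finset
open Vale.Agent.P141.H970
open Vale.Agent.P141.H690 (tr6 tr6_zero Pst6 MX Qs Qs_psd prob_stop6 XT XT_symm XT_sum_le'
  XT_trace_le XT_psd)
open Vale.Agent.P141.H483 (tmean tmean_mono tmean_const tmean_mul)

set_option linter.unusedSectionVars false

variable {ι : Type*} [Fintype ι] [DecidableEq ι]

/-- the trace of the square function is a supermean on the tree -/
theorem Qs_super {X : ℕ → ℤ → Matrix ι ι ℝ} (hX : ∀ k m, (X k m)ᵀ = X k m) (k : ℕ) (m : ℤ) :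
    ((Qs X k (2 * m)).trace + (Qs X k (2 * m + 1)).trace) / 2 ≤ (Qs X (k + 1) m).trace := by
  have h : 0 ≤ (X (k + 1) m * X (k + 1) m).trace := by
    have := (posSemidef_conjTranspose_mul_self (X (k + 1) m)).trace_nonneg
    rwa [conjTranspose_eq_transpose_of_trivial, hX] at this
  rw [Qs, trace_add, trace_smul, trace_add, smul_eq_mul]
  linarith

theorem Qs_tr0 {X : ℕ → ℤ → Matrix ι ι ℝ} (hX : ∀ k m, (X k m)ᵀ = X k m) (k : ℕ) (m : ℤ) :
    0 ≤ (Qs X k m).trace := (Qs_psd hX k m).trace_nonneg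

variable {n : ℕ} {M : ℕ → ℝ} {X : ℕ → ℤ → Matrix ι ι ℝ} {γ : ℕ → ℤ → ℕ}
  {R : ℕ → ℕ → ℤ → Matrix ι ι ℝ}

/-- **The next generation, by the square function of the cell.** -/
theorem prob_cell (h : Gn n M X γ R) {κ : ℝ} (hκ : 0 < κ) (hM : ∀ g, 0 < M g)
    (hX : ∀ k m, (X k m)ᵀ = X k m)
    (hQ : ∀ k m, (κ • (1 : Matrix ι ι ℝ) - Qs X k m).PosSemidef) (g : ℕ) :
    ∀ k ≤ n, ∀ m, γ k m < g →
      tmean (Gn.ge γ (g + 1) 0) k m ≤ 280000 * κ ^ 2 * (Qs X k m).trace / M g := by
  intro k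
  induction k with
  | zero =>
    intro _ m hm
    have h1 : ¬ g + 1 ≤ γ 0 m := by omega
    simp only [tmean, Gn.ge, if_neg h1]
    have := Qs_tr0 hX 0 m
    have := hM g
    positivity
  | succ k ih =>
    intro hk m hm
    have hkn : k < n := by omega
    have child : ∀ i : ℤ, i / 2 = m →
        tmean (Gn.ge γ (g + 1) 0) k i ≤ 280000 * κ ^ 2 * (Qs X k i).trace / M g := by
      intro i hi
      by_cases hlt : γ k i < g
      · exact ih (by omega) i hlt
      · have h1 := h.step hkn i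
        rw [hi] at h1
        have h2 : γ k i = g := by omega
        have h3 := h.next_le g k (by omega) i h2
        rw [h.zero_child g hkn i (by rw [hi]; exact hm)] at h3
        exact h3.trans (prob_stop6 hκ (hM g) hX hQ k i)
    have c1 := child (2 * m) (by omega)
    have c2 := child (2 * m + 1) (by omega)
    have h3 := Qs_super hX k m
    have hMg := hM g
    have h4 : (280000 * κ ^ 2 * (Qs X k (2 * m)).trace / M g +
        280000 * κ ^ 2 * (Qs X k (2 * m + 1)).trace / M g) / 2 ≤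
        280000 * κ ^ 2 * (Qs X (k + 1) m).trace / M g := by
      have e : (280000 * κ ^ 2 * (Qs X k (2 * m)).trace / M g +
          280000 * κ ^ 2 * (Qs X k (2 * m + 1)).trace / M g) / 2 =
          280000 * κ ^ 2 * (((Qs X k (2 * m)).trace + (Qs X k (2 * m + 1)).trace) / 2) / M g := by
        ring
      rw [e]
      exact div_le_div_of_nonneg_right (mul_le_mul_of_nonneg_left h3 (by positivity)) hMg.le
    simp only [tmean]
    linarith

/-- **The probability of every generation by the top square function.** -/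
theorem prob_top (h : Gn n M X γ R) {κ : ℝ} (hκ : 0 < κ) (hM : ∀ g, 0 < M g)
    (hX : ∀ k m, (X k m)ᵀ = X k m)
    (hQ : ∀ k m, (κ • (1 : Matrix ι ι ℝ) - Qs X k m).PosSemidef) (g : ℕ) (m : ℤ) :
    tmean (Gn.ge γ (g + 1) 0) n m ≤ 280000 * κ ^ 2 * (Qs X n m).trace / M g := by
  rcases Nat.eq_zero_or_pos g with rfl | hg
  · exact (h.prob_zero m).trans (prob_stop6 hκ (hM 0) hX hQ n m)
  · exact prob_cell h hκ hM hX hQ g n le_rfl m (by rw [h.topγ]; exact hg)

section tie

variable {l : ℝ} {G K : ℕ → ℤ → Matrix ι ι ℝ} {th : ℕ → ℤ → ℝ} {c x1 x3 : ℤ}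

/-- **[T4] The generations of the flow at fixed `x₁, x₃`, real ties, by the trace at the top scale
alone.**  `κ g` the caps, `T₀` a bound for the traces at the top scale `n`, `|θ| ≤ 1`.  The mean of
`γ ≥ g + 1` is at most `3780000 T₀ / (l (κ g)⁶)` for every `g`. -/
theorem gen_top (h : H420.Tr l n G K) (hth : ∀ j i, |th j i| ≤ 1) (hc : -3 ≤ c) (hc' : c ≤ -1)
    {κ : ℕ → ℝ} (hκ : ∀ g, 0 < κ g) {T₀ : ℝ} (hT0 : ∀ m, (G n m).trace ≤ T₀) :
    ∃ γ R, Gn n (fun g => κ g ^ 6) (XT l n K th c x1 x3) γ R ∧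
      (∀ g, ∀ k ≤ n, ∀ m, (R g k m)ᵀ = R g k m) ∧
      (∀ g, ∀ k ≤ n, ∀ m (v : ι → ℝ),
        (R g k m *ᵥ v) ⬝ᵥ (R g k m *ᵥ v) ≤ (κ g + 1) ^ 2 * (v ⬝ᵥ v)) ∧
      (∀ g m, tmean (Gn.ge γ (g + 1) 0) n m ≤ 3780000 * T₀ / (l * κ g ^ 6)) ∧
      (∀ (v : ι → ℝ) (w : ℝ), (∀ p, v ⬝ᵥ G n p *ᵥ v ≤ w) → ∀ m,
        H420.tsum (fun j i => (XT l n K th c x1 x3 j i *ᵥ v) ⬝ᵥ
          (XT l n K th c x1 x3 j i *ᵥ v)) n m ≤ 3 * w / (2 * l)) ∧
      (∀ (v : ι → ℝ) g m, H420.tsum (fun j i => (if γ j i = g then 1 else 0) *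
        ((XT l n K th c x1 x3 j i *ᵥ v) ⬝ᵥ (XT l n K th c x1 x3 j i *ᵥ v))) n m ≤
          3 * (v ⬝ᵥ v) * tmean (Gn.ge γ g 0) n m) := by
  obtain ⟨γ, R, hG⟩ := exists_gn n (fun g => κ g ^ 6) (XT l n K th c x1 x3)
  have hM : ∀ g, 0 ≤ (fun g => κ g ^ 6) g := fun g => (pow_pos (hκ g) 6).le
  refine ⟨γ, R, hG, fun g k hk m => hG.symm (XT_symm h) g k hk m,
    fun g k hk m v => hG.op_le hM (XT_symm h) (fun k hk m v => XT_op h hth hk m v) (hκ g).le rfl
      v k hk m, fun g m => ?_, fun v w hw m => XT_sum_top h hth hc hc' v le_rfl hw m,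
    fun v g m => ?_⟩
  · refine (prob_top hG (by norm_num : (0 : ℝ) < 3) (fun g => pow_pos (hκ g) 6) (XT_symm h)
      (XT_psd (x1 := x1) (x3 := x3) h hth hc hc') g m).trans ?_
    have h2 := XT_trace_le (x1 := x1) (x3 := x3) h hth hc hc' le_rfl hT0 m
    have h4 : 3780000 * T₀ / (l * κ g ^ 6) = 280000 * 3 ^ 2 * (3 * T₀ / (2 * l)) / κ g ^ 6 := by
      have := h.l_pos
      have := hκ g
      field_simp
      ring
    rw [h4]
    exact div_le_div_of_nonneg_right (by linarith) (pow_pos (hκ g) 6).le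
  · have hv := H186.dot_self_nonneg v
    exact hG.energy g (fun j i => H186.dot_self_nonneg _) (by positivity)
      (fun k _ m => XT_sum_le' h hth hc hc' v k m) n le_rfl m

end tie

end Vale.Agent.P141.H540
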