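import Vale.Agent.P141.H540.WPart

/-!
# P141, line W, end lemma: the star summed over a family (shifts and first coordinates), and the
caps of gauged lifts from row bounds of the gauge
-/

namespace Vale.Agent.P141.H540

open Finset Matrix Vale.Agent.P075 Vale.Agent.P141.PL Vale.Agent.P141.PL.H588
open Vale.Agent.P141.PL.H804 Vale.Agent.P141.H736 Vale.Agent.P141.H958 Vale.Agent.P141.H170

noncomputable section

open scoped Classical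

/-- Cauchy-Schwarz for square roots -/
theorem sum_sqrt_mul_le {ι : Type*} (I : Finset ι) {x y : ι → ℝ} (hx : ∀ i ∈ I, 0 ≤ x i)
    (hy : ∀ i ∈ I, 0 ≤ y i) {X Y : ℝ} (hX : ∑ i ∈ I, x i ≤ X) (hY : ∑ i ∈ I, y i ≤ Y) :
    ∑ i ∈ I, √(x i * y i) ≤ √(X * Y) := by
  have h1 : ∑ i ∈ I, √(x i * y i) = ∑ i ∈ I, √(x i) * √(y i) :=
    sum_congr rfl fun i hi => Real.sqrt_mul (hx i hi) _
  rw [h1]
  have h2 : (∑ i ∈ I, √(x i) * √(y i)) ^ 2 ≤ X * Y := by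
    refine (sum_mul_sq_le_sq_mul_sq _ _ _).trans ?_
    rw [sum_congr rfl fun i hi => Real.sq_sqrt (hx i hi),
      sum_congr rfl fun i hi => Real.sq_sqrt (hy i hi)]
    exact mul_le_mul hX hY (sum_nonneg hy) ((sum_nonneg hx).trans hX)
  exact Real.le_sqrt_of_sq_le h2

/-- **The star with three terms summed over a family**: caps common, powers summed. -/
theorem star_fam {ι : Type*} (I : Finset ι) {N : ℕ} {R : ι → Pt} {c : ι → ℕ → ℤ}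
    {A B C : ι → ℕ → ℤ → ℤ → ℝ} {cA cB cC DA DB DC : ℝ} {s : ι → ℕ → Finset Pt}
    {QA QB QC : ι → ℕ → ℤ → ℤ → Prop}
    (hc : ∀ i ∈ I, Pl (c i)) (hs : ∀ i ∈ I, ∀ k ∈ Icc 1 N, s i k ⊆ bx3 N (R i) k (c i k))
    (hA : 0 < cA) (hB : 0 < cB) (hC : 0 < cC)
    (capA : ∀ i ∈ I, ∀ k ∈ Icc 1 N, ∀ m ∈ s i k, Cap k m.1 m.2.1 cA (A i k))
    (capB : ∀ i ∈ I, ∀ k ∈ Icc 1 N, ∀ m ∈ s i k, Cap k m.2.1 m.2.2 cB (B i k))
    (capC : ∀ i ∈ I, ∀ k ∈ Icc 1 N, ∀ m ∈ s i k, Cap k m.1 m.2.2 cC (C i k))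
    (pA : ∀ i ∈ I, Path N (R i).1 (R i).2.1 (QA i) (A i))
    (pB : ∀ i ∈ I, Path N (R i).2.1 (R i).2.2 (QB i) (B i))
    (pC : ∀ i ∈ I, Path N (R i).1 (R i).2.2 (QC i) (C i))
    (zA : ∀ i ∈ I, A i 0 = 0) (zB : ∀ i ∈ I, B i 0 = 0) (zC : ∀ i ∈ I, C i 0 = 0)
    (hDA : ∑ i ∈ I, pwr N (R i).1 (R i).2.1 (QA i) (A i) ≤ DA)
    (hDB : ∑ i ∈ I, pwr N (R i).2.1 (R i).2.2 (QB i) (B i) ≤ DB)
    (hDC : ∑ i ∈ I, pwr N (R i).1 (R i).2.2 (QC i) (C i) ≤ DC) :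
    ∑ i ∈ I, ∑ k ∈ Icc 1 N, (2 ^ k : ℝ)⁻¹ * ∑ m ∈ s i k, |tri k m (A i k) (B i k) (C i k)| ≤
      26016 * (cA * √(DB * DC) + cB * √(DC * DA) + cC * √(DA * DB)) := by
  have nA : ∀ i ∈ I, 0 ≤ pwr N (R i).1 (R i).2.1 (QA i) (A i) := fun i _ => pwr_nonneg _ _ _ _ _
  have nB : ∀ i ∈ I, 0 ≤ pwr N (R i).2.1 (R i).2.2 (QB i) (B i) := fun i _ => pwr_nonneg _ _ _ _ _
  have nC : ∀ i ∈ I, 0 ≤ pwr N (R i).1 (R i).2.2 (QC i) (C i) := fun i _ => pwr_nonneg _ _ _ _ _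
  have key : ∀ i ∈ I, ∑ k ∈ Icc 1 N, (2 ^ k : ℝ)⁻¹ *
      ∑ m ∈ s i k, |tri k m (A i k) (B i k) (C i k)| ≤
      26016 * (cA * √(pwr N (R i).2.1 (R i).2.2 (QB i) (B i) *
          pwr N (R i).1 (R i).2.2 (QC i) (C i)) +
        cB * √(pwr N (R i).1 (R i).2.2 (QC i) (C i) * pwr N (R i).1 (R i).2.1 (QA i) (A i)) +
        cC * √(pwr N (R i).1 (R i).2.1 (QA i) (A i) *
          pwr N (R i).2.1 (R i).2.2 (QB i) (B i))) := by
    intro i hi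
    have h := starB (hc i hi) (hs i hi) hA hB hC (capA i hi) (capB i hi) (capC i hi) (pA i hi)
      (pB i hi) (pC i hi) (zA i hi) (zB i hi) (zC i hi)
    unfold st3 at h
    linarith
  refine (sum_le_sum key).trans ?_
  rw [← mul_sum, sum_add_distrib, sum_add_distrib, ← mul_sum, ← mul_sum, ← mul_sum]
  refine mul_le_mul_of_nonneg_left ?_ (by norm_num)
  have h1 := sum_sqrt_mul_le I nB nC hDB hDC
  have h2 := sum_sqrt_mul_le I nC nA hDC hDA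
  have h3 := sum_sqrt_mul_le I nA nB hDA hDB
  exact add_le_add (add_le_add (mul_le_mul_of_nonneg_left h1 hA.le)
    (mul_le_mul_of_nonneg_left h2 hB.le)) (mul_le_mul_of_nonneg_left h3 hC.le)

/-- **The cap of a gauged function**: rows of the gauge, columns of the function. -/
theorem cap_row {k : ℕ} {n m : ℤ} {a F : ℤ → ℤ → ℝ} {ρ e : ℝ} (hρ0 : 0 ≤ ρ) (he0 : 0 ≤ e)
    (hρ : ∀ x ∈ iv k n, ∑ y ∈ iv k m, a x y ^ 2 ≤ ρ * 2 ^ k)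
    (hF : ∀ y ∈ iv k m, ∑ x ∈ iv k n, F x y ^ 2 ≤ e * 2 ^ k) :
    Cap k n m (√(ρ * e)) (fun x y => a x y * F x y) := by
  intro u v
  have hu : 0 ≤ ∑ x ∈ iv k n, u x ^ 2 := sum_nonneg fun _ _ => sq_nonneg _
  have hv : 0 ≤ ∑ y ∈ iv k m, v y ^ 2 := sum_nonneg fun _ _ => sq_nonneg _
  have e1 : ∑ x ∈ iv k n, ∑ y ∈ iv k m, u x * v y * (a x y * F x y) =
      ∑ p ∈ iv k n ×ˢ iv k m, (u p.1 * a p.1 p.2) * (v p.2 * F p.1 p.2) := by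
    rw [sum_product]
    exact sum_congr rfl fun x _ => sum_congr rfl fun y _ => by ring
  have e2 : ∑ p ∈ iv k n ×ˢ iv k m, (u p.1 * a p.1 p.2) ^ 2 ≤
      ρ * 2 ^ k * ∑ x ∈ iv k n, u x ^ 2 := by
    rw [sum_product, mul_sum]
    refine sum_le_sum fun x hx => ?_
    have : ∑ y ∈ iv k m, (u x * a x y) ^ 2 = u x ^ 2 * ∑ y ∈ iv k m, a x y ^ 2 := by
      rw [mul_sum]; exact sum_congr rfl fun y _ => by ring
    show ∑ y ∈ iv k m, (u x * a x y) ^ 2 ≤ _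
    rw [this, mul_comm]
    exact mul_le_mul_of_nonneg_right (hρ x hx) (sq_nonneg _)
  have e3 : ∑ p ∈ iv k n ×ˢ iv k m, (v p.2 * F p.1 p.2) ^ 2 ≤
      e * 2 ^ k * ∑ y ∈ iv k m, v y ^ 2 := by
    rw [sum_product, sum_comm, mul_sum]
    refine sum_le_sum fun y hy => ?_
    have : ∑ x ∈ iv k n, (v y * F x y) ^ 2 = v y ^ 2 * ∑ x ∈ iv k n, F x y ^ 2 := by
      rw [mul_sum]; exact sum_congr rfl fun x _ => by ring
    show ∑ x ∈ iv k n, (v y * F x y) ^ 2 ≤ _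
    rw [this, mul_comm]
    exact mul_le_mul_of_nonneg_right (hF y hy) (sq_nonneg _)
  rw [e1]
  refine (sum_mul_sq_le_sq_mul_sq _ _ _).trans ?_
  refine (mul_le_mul e2 e3 (sum_nonneg fun _ _ => sq_nonneg _) (by positivity)).trans
    (le_of_eq ?_)
  rw [mul_pow (√(ρ * e)), Real.sq_sqrt (by positivity)]
  ring

/-- the same with columns of the gauge and rows of the function -/
theorem cap_col {k : ℕ} {n m : ℤ} {a F : ℤ → ℤ → ℝ} {ρ e : ℝ} (hρ0 : 0 ≤ ρ) (he0 : 0 ≤ e)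
    (hρ : ∀ y ∈ iv k m, ∑ x ∈ iv k n, a x y ^ 2 ≤ ρ * 2 ^ k)
    (hF : ∀ x ∈ iv k n, ∑ y ∈ iv k m, F x y ^ 2 ≤ e * 2 ^ k) :
    Cap k n m (√(ρ * e)) (fun x y => a x y * F x y) := by
  have h := cap_row (a := fun x y => a y x) (F := fun x y => F y x) (n := m) (m := n) hρ0 he0
    hρ hF
  intro u v
  have h1 := h v u
  rw [sum_comm] at h1
  have e1 : ∑ y ∈ iv k n, ∑ x ∈ iv k m, v x * u y * (a y x * F y x) =
      ∑ x ∈ iv k n, ∑ y ∈ iv k m, u x * v y * (a x y * F x y) :=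
    sum_congr rfl fun x _ => sum_congr rfl fun y _ => by ring
  have e2 : (∑ x ∈ iv k n, ∑ y ∈ iv k m, u x * v y * (a x y * F x y)) ^ 2 ≤
      ((√(ρ * e) * 2 ^ k) ^ 2 * ∑ x ∈ iv k m, v x ^ 2) * ∑ y ∈ iv k n, u y ^ 2 := by
    rw [← e1]; exact h1
  refine e2.trans (le_of_eq ?_)
  ring

end

end Vale.Agent.P141.H540
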