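import Vale.Agent.P141.H769.Cb4

/-!
# P141, line W: (U4) (rows 3261, 3544)

`G` is `δ`-uniform on a box `A × B × C` (edge weights `Nm e`), `u x y` is a vector function of the
edge `A × B`.  The fourth Schatten power of the matrices `((x, λ), y) ↦ u_λ (x, y) G (x, y, z)`,
averaged over `z`, is at most `δ ^ (2 - O(e))` times the average over `x` of the norm of the Gram
operator of `u x` times the energy of `u G`.  It is CB4 with the factor `|u (x, c)|` moved to the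
edge `(x, z)`; it is linear in the energy of `u G`.
-/

namespace Vale.Agent.P141.H540

noncomputable section

open scoped BigOperators
open Vale.Agent.P141.PL.H315 Vale.Agent.P141.H315 Vale.Agent.P141.H550 Vale.Agent.P141.H769

/-- One center `c`, weight `ν x * v y x`: the self-improving inequality. -/
theorem u4_center_aux {δ e M N V : ℝ} (hδ : 0 ≤ δ) (he0 : 0 ≤ e) (he1 : e ≤ 1) (hM : 0 ≤ M)
    (hN : 0 ≤ N) (hV : 0 ≤ V) {A B C : Finset ℤ} (hA : A.Nonempty) {G : ℤ × ℤ × ℤ → ℝ}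
    (hU : UnifBox δ e A B C G)
    (hG : ∀ x ∈ A, ∀ y ∈ B, ∀ z ∈ C, |G (x, y, z)| ≤ M) {c : ℤ} (hc : c ∈ B)
    (ν : ℤ → ℝ) (hν : ∀ x ∈ A, |ν x| ≤ N)
    (v : ℤ → ℤ → ℝ) (hv : ∀ y ∈ B, ∀ x ∈ A, |v y x| ≤ V) {n E : ℝ}
    (hn : (avg B fun y => avg A fun x => v y x ^ 2) ≤ n)
    (hE : (avg A fun x => avg C fun z => (ν x * G (x, c, z)) ^ 2) ≤ E)
    {P : ℝ} (hP : P = avg B fun y => avg C fun z =>
      (avg A fun x => (ν x * v y x) * (G (x, y, z) * G (x, c, z))) ^ 2) :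
    P ≤ δ * ((n ^ ((1 - e) / 2) * V ^ e) * (E ^ ((1 - e) / 2) * (N * M) ^ e) *
      (P ^ ((1 - e) / 2) * (N * V * M ^ 2) ^ e)) := by
  classical
  set h : ℤ → ℤ → ℝ := fun y z =>
    avg A fun x => (ν x * v y x) * (G (x, y, z) * G (x, c, z)) with hh
  let u12 : ℤ × ℤ → ℝ := fun q => v q.2 q.1
  let u13 : ℤ × ℤ → ℝ := fun q => ν q.1 * G (q.1, c, q.2)
  let u23 : ℤ × ℤ → ℝ := fun q => h q.1 q.2
  have hνG : ∀ x ∈ A, ∀ z ∈ C, |ν x * G (x, c, z)| ≤ N * M := by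
    intro x hx z hz
    rw [abs_mul]
    exact mul_le_mul (hν x hx) (hG x hx c hc z hz) (abs_nonneg _) hN
  have hh_le : ∀ y ∈ B, ∀ z ∈ C, |h y z| ≤ N * V * M ^ 2 := by
    intro y hy z hz
    refine abs_avg_le_of hA fun x hx => ?_
    rw [abs_mul, abs_mul, abs_mul]
    calc |ν x| * |v y x| * (|G (x, y, z)| * |G (x, c, z)|) ≤ (N * V) * (M * M) :=
          mul_le_mul (mul_le_mul (hν x hx) (hv y hy x hx) (abs_nonneg _) hN)
            (mul_le_mul (hG x hx y hy z hz) (hG x hx c hc z hz)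
            (abs_nonneg _) hM) (by positivity) (by positivity)
      _ = N * V * M ^ 2 := by ring
  have hpair : avg (A ×ˢ B ×ˢ C) (fun q => G q * atm (u12, u13, u23) q) = P := by
    rw [hP, avg_prod]
    have e1 : ∀ x ∈ A, avg (B ×ˢ C) (fun q => G (x, q) * atm (u12, u13, u23) (x, q)) =
        avg B fun y => avg C fun z => G (x, y, z) * atm (u12, u13, u23) (x, y, z) := by
      intro x _
      rw [avg_prod]
    rw [avg_congr e1, avg_comm]
    refine avg_congr fun y _ => ?_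
    rw [avg_comm]
    refine avg_congr fun z _ => ?_
    have e3 : ∀ x ∈ A, G (x, y, z) * atm (u12, u13, u23) (x, y, z) =
        h y z * ((ν x * v y x) * (G (x, y, z) * G (x, c, z))) := by
      intro x _
      simp only [atm, e12, e13, e23, u12, u13, u23]
      ring
    rw [avg_congr e3, avg_mul_left]
    show h y z * h y z = h y z ^ 2
    ring
  have hN12 : Nm e (A ×ˢ B) u12 ≤ n ^ ((1 - e) / 2) * V ^ e := by
    refine Nm_le he0 he1 hV ?_ ?_
    · rw [avg_prod, avg_comm]; exact hn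
    · rintro ⟨x, y⟩ hq
      rw [Finset.mem_product] at hq
      exact hv y hq.2 x hq.1
  have hN13 : Nm e (A ×ˢ C) u13 ≤ E ^ ((1 - e) / 2) * (N * M) ^ e := by
    refine Nm_le he0 he1 (by positivity) ?_ ?_
    · rw [avg_prod]; exact hE
    · rintro ⟨x, z⟩ hq
      rw [Finset.mem_product] at hq
      exact hνG x hq.1 z hq.2
  have hN23 : Nm e (B ×ˢ C) u23 ≤ P ^ ((1 - e) / 2) * (N * V * M ^ 2) ^ e := by
    refine Nm_le he0 he1 (by positivity) ?_ ?_
    · rw [avg_prod, hP]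
    · rintro ⟨y, z⟩ hq
      rw [Finset.mem_product] at hq
      exact hh_le y hq.1 z hq.2
  have hu := hU (u12, u13, u23)
  rw [hpair] at hu
  refine (le_abs_self _).trans (hu.trans ?_)
  refine mul_le_mul_of_nonneg_left ?_ hδ
  have p1 := Nm_nonneg e (A ×ˢ B) u12
  have p2 := Nm_nonneg e (A ×ˢ C) u13
  have p3 := Nm_nonneg e (B ×ˢ C) u23
  exact mul_le_mul (mul_le_mul hN12 hN13 p2 (p1.trans hN12)) hN23 p3
    (mul_nonneg (p1.trans hN12) (p2.trans hN13))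

/-- **(U4)**, one center `c`: `P ^ (1 + e) ≤ δ² (n E)^(1-e) ((N V)² M³)^(2e)`. -/
theorem u4_center_pow {δ e M N V : ℝ} (hδ : 0 ≤ δ) (he0 : 0 ≤ e) (he1 : e ≤ 1) (hM : 0 ≤ M)
    (hN : 0 ≤ N) (hV : 0 ≤ V) {A B C : Finset ℤ} (hA : A.Nonempty) {G : ℤ × ℤ × ℤ → ℝ}
    (hU : UnifBox δ e A B C G)
    (hG : ∀ x ∈ A, ∀ y ∈ B, ∀ z ∈ C, |G (x, y, z)| ≤ M) {c : ℤ} (hc : c ∈ B)
    (ν : ℤ → ℝ) (hν : ∀ x ∈ A, |ν x| ≤ N)
    (v : ℤ → ℤ → ℝ) (hv : ∀ y ∈ B, ∀ x ∈ A, |v y x| ≤ V) {n E : ℝ}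
    (hn : (avg B fun y => avg A fun x => v y x ^ 2) ≤ n)
    (hE : (avg A fun x => avg C fun z => (ν x * G (x, c, z)) ^ 2) ≤ E) :
    (avg B fun y => avg C fun z =>
      (avg A fun x => (ν x * v y x) * (G (x, y, z) * G (x, c, z))) ^ 2) ^ (1 + e) ≤
      δ ^ 2 * (n * E) ^ (1 - e) * ((N * V) ^ 2 * M ^ 3) ^ (2 * e) := by
  set P : ℝ := avg B fun y => avg C fun z =>
      (avg A fun x => (ν x * v y x) * (G (x, y, z) * G (x, c, z))) ^ 2 with hP
  have hP0 : 0 ≤ P := avg_nonneg fun _ _ => avg_nonneg fun _ _ => sq_nonneg _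
  have hn0 : 0 ≤ n := (avg_nonneg fun _ _ => avg_nonneg fun _ _ => sq_nonneg _).trans hn
  have hE0 : 0 ≤ E := (avg_nonneg fun _ _ => avg_nonneg fun _ _ => sq_nonneg _).trans hE
  have hrhs : 0 ≤ δ ^ 2 * (n * E) ^ (1 - e) * ((N * V) ^ 2 * M ^ 3) ^ (2 * e) := by positivity
  rcases hP0.eq_or_lt with h0 | hpos
  · rw [← h0, Real.zero_rpow (by linarith)]; exact hrhs
  have key := u4_center_aux hδ he0 he1 hM hN hV hA hU hG hc ν hν v hv hn hE hP
  set Z : ℝ := δ * ((n ^ ((1 - e) / 2) * V ^ e) * (E ^ ((1 - e) / 2) * (N * M) ^ e) *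
      (N * V * M ^ 2) ^ e) with hZ
  have hZ0 : 0 ≤ Z := by positivity
  have key2 : P ≤ Z * P ^ ((1 - e) / 2) := by
    calc P ≤ _ := key
      _ = _ := by rw [hZ]; ring
  have hq : 0 < P ^ ((1 - e) / 2) := Real.rpow_pos_of_pos hpos _
  have key3 : P ^ ((1 + e) / 2) ≤ Z := by
    have h1 : P = P ^ ((1 + e) / 2) * P ^ ((1 - e) / 2) := by
      rw [← Real.rpow_add hpos]
      have : (1 + e) / 2 + (1 - e) / 2 = 1 := by ring
      rw [this, Real.rpow_one]
    have h2 : P ^ ((1 + e) / 2) * P ^ ((1 - e) / 2) ≤ Z * P ^ ((1 - e) / 2) := by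
      rw [← h1]; exact key2
    exact le_of_mul_le_mul_right h2 hq
  have h3 : P ^ (1 + e) = (P ^ ((1 + e) / 2)) ^ 2 := by
    rw [← Real.rpow_natCast, ← Real.rpow_mul hP0]
    congr 1; push_cast; ring
  rw [h3]
  refine (pow_le_pow_left₀ (Real.rpow_nonneg hP0 _) key3 2).trans (le_of_eq ?_)
  have e1 : ∀ a : ℝ, 0 ≤ a → (a ^ ((1 - e) / 2)) ^ 2 = a ^ (1 - e) := by
    intro a ha
    rw [← Real.rpow_natCast, ← Real.rpow_mul ha]
    congr 1; push_cast; ring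
  have e2 : ∀ a : ℝ, 0 ≤ a → (a ^ e) ^ 2 = a ^ (2 * e) := by
    intro a ha
    rw [← Real.rpow_natCast, ← Real.rpow_mul ha]
    congr 1; push_cast; ring
  rw [hZ, Real.mul_rpow hn0 hE0]
  have e3 : (N * V) ^ 2 * M ^ 3 = V * (N * M) * (N * V * M ^ 2) := by ring
  rw [e3, Real.mul_rpow (mul_nonneg hV (mul_nonneg hN hM)) (by positivity),
    Real.mul_rpow hV (mul_nonneg hN hM)]
  rw [← e1 n hn0, ← e1 E hE0, ← e2 V hV, ← e2 (N * M) (by positivity),
    ← e2 (N * V * M ^ 2) (by positivity)]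
  ring

/-- **(U4)**, one center `c`, linear form. -/
theorem u4_center {δ e M N V κ : ℝ} (hδ : 0 ≤ δ) (he0 : 0 ≤ e) (he1 : e ≤ 1) (hM : 0 ≤ M)
    (hN : 0 ≤ N) (hV : 0 ≤ V) (hκ : 0 < κ) {A B C : Finset ℤ} (hA : A.Nonempty)
    {G : ℤ × ℤ × ℤ → ℝ} (hU : UnifBox δ e A B C G)
    (hG : ∀ x ∈ A, ∀ y ∈ B, ∀ z ∈ C, |G (x, y, z)| ≤ M) {c : ℤ} (hc : c ∈ B)
    (ν : ℤ → ℝ) (hν : ∀ x ∈ A, |ν x| ≤ N)
    (v : ℤ → ℤ → ℝ) (hv : ∀ y ∈ B, ∀ x ∈ A, |v y x| ≤ V) {n E : ℝ}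
    (hn : (avg B fun y => avg A fun x => v y x ^ 2) ≤ n)
    (hE : (avg A fun x => avg C fun z => (ν x * G (x, c, z)) ^ 2) ≤ E) :
    (avg B fun y => avg C fun z =>
      (avg A fun x => (ν x * v y x) * (G (x, y, z) * G (x, c, z))) ^ 2) ≤
      cbT δ e M (N * V) κ * (n * E) + cbErr δ e M (N * V) κ := by
  set P : ℝ := avg B fun y => avg C fun z =>
      (avg A fun x => (ν x * v y x) * (G (x, y, z) * G (x, c, z))) ^ 2 with hP
  have hP0 : 0 ≤ P := avg_nonneg fun _ _ => avg_nonneg fun _ _ => sq_nonneg _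
  have hn0 : 0 ≤ n := (avg_nonneg fun _ _ => avg_nonneg fun _ _ => sq_nonneg _).trans hn
  have hE0 : 0 ≤ E := (avg_nonneg fun _ _ => avg_nonneg fun _ _ => sq_nonneg _).trans hE
  have key := u4_center_pow hδ he0 he1 hM hN hV hA hU hG hc ν hν v hv hn hE
  rw [← hP] at key
  have h1e : 0 < 1 + e := by linarith
  have h1 : P = (P ^ (1 + e)) ^ (1 / (1 + e)) := by
    rw [← Real.rpow_mul hP0, mul_one_div_cancel h1e.ne', Real.rpow_one]
  have hnE : 0 ≤ n * E := mul_nonneg hn0 hE0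
  have h2 : P ≤ (δ ^ 2 * (n * E) ^ (1 - e) * ((N * V) ^ 2 * M ^ 3) ^ (2 * e)) ^
      (1 / (1 + e)) := by
    rw [h1]
    exact Real.rpow_le_rpow (Real.rpow_nonneg hP0 _) key (by positivity)
  have h3 : (δ ^ 2 * (n * E) ^ (1 - e) * ((N * V) ^ 2 * M ^ 3) ^ (2 * e)) ^ (1 / (1 + e)) =
      (δ ^ 2 * ((N * V) ^ 2 * M ^ 3) ^ (2 * e)) ^ (1 / (1 + e)) *
        (n * E) ^ ((1 - e) / (1 + e)) := by
    have : δ ^ 2 * (n * E) ^ (1 - e) * ((N * V) ^ 2 * M ^ 3) ^ (2 * e) =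
        (δ ^ 2 * ((N * V) ^ 2 * M ^ 3) ^ (2 * e)) * (n * E) ^ (1 - e) := by ring
    rw [this, Real.mul_rpow (by positivity) (by positivity), ← Real.rpow_mul hnE]
    congr 2; ring
  rw [h3] at h2
  have hθ0 : 0 ≤ (1 - e) / (1 + e) := div_nonneg (by linarith) h1e.le
  have hθ1 : (1 - e) / (1 + e) ≤ 1 := by rw [div_le_one h1e]; linarith
  have h4 := rpow_le_lin hnE hκ hθ0 hθ1
  have h5 : (1 - e) / (1 + e) - 1 = -(2 * e / (1 + e)) := by field_simp; ring
  rw [h5] at h4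
  have hD : 0 ≤ (δ ^ 2 * ((N * V) ^ 2 * M ^ 3) ^ (2 * e)) ^ (1 / (1 + e)) := by positivity
  calc P ≤ _ := h2
    _ ≤ (δ ^ 2 * ((N * V) ^ 2 * M ^ 3) ^ (2 * e)) ^ (1 / (1 + e)) *
        (κ ^ (-(2 * e / (1 + e))) * (n * E) + κ ^ ((1 - e) / (1 + e))) :=
        mul_le_mul_of_nonneg_left h4 hD
    _ = _ := by unfold cbT cbErr; ring

/-- Two averages, the pointwise product in the first variable. -/
theorem avg_sq_smul {X Y : Type*} (A : Finset X) (B : Finset Y) (a : X → ℝ) (f : X → Y → ℝ) :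
    (avg A fun x => avg B fun y => (a x * f x y) ^ 2) =
      avg A fun x => a x ^ 2 * avg B fun y => f x y ^ 2 := by
  refine avg_congr fun x _ => ?_
  rw [← avg_mul_left]
  refine avg_congr fun y _ => ?_
  ring

section vec

variable {ι : Type*} [Fintype ι]

/-- The length of a vector. -/
def len (a : ι → ℝ) : ℝ := Real.sqrt (∑ i, a i ^ 2)

theorem len_nonneg (a : ι → ℝ) : 0 ≤ len a := Real.sqrt_nonneg _

theorem len_sq (a : ι → ℝ) : len a ^ 2 = ∑ i, a i ^ 2 :=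
  Real.sq_sqrt (Finset.sum_nonneg fun _ _ => sq_nonneg _)

theorem abs_sum_mul_le (a b : ι → ℝ) : |∑ i, a i * b i| ≤ len a * len b := by
  rw [← Real.sqrt_sq_eq_abs]
  refine (Real.sqrt_le_sqrt (Finset.sum_mul_sq_le_sq_mul_sq Finset.univ a b)).trans ?_
  rw [Real.sqrt_mul (Finset.sum_nonneg fun _ _ => sq_nonneg _)]
  rfl

/-- `a / |a|` (zero for `a = 0`). -/
def dir (a : ι → ℝ) : ι → ℝ := fun i => (len a)⁻¹ * a i

theorem len_mul_dir (a : ι → ℝ) (i : ι) : len a * dir a i = a i := by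
  unfold dir
  rcases (len_nonneg a).eq_or_lt with h | h
  · have h0 : ∑ i, a i ^ 2 = 0 := by rw [← len_sq, ← h]; ring
    have h1 : a i ^ 2 = 0 :=
      (Finset.sum_eq_zero_iff_of_nonneg fun _ _ => sq_nonneg _).mp h0 i (Finset.mem_univ i)
    have h2 : a i = 0 := by simpa using h1
    rw [h2]; ring
  · rw [← mul_assoc, mul_inv_cancel₀ h.ne', one_mul]

theorem dir_sq_le (a : ι → ℝ) : ∑ i, dir a i ^ 2 ≤ 1 := by
  unfold dir
  have : ∑ i, ((len a)⁻¹ * a i) ^ 2 = (len a)⁻¹ ^ 2 * ∑ i, a i ^ 2 := by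
    rw [Finset.mul_sum]
    refine Finset.sum_congr rfl fun i _ => ?_
    ring
  rw [this, ← len_sq]
  rcases (len_nonneg a).eq_or_lt with h | h
  · rw [← h]; norm_num
  · rw [inv_pow, inv_mul_cancel₀ (pow_pos h 2).ne']

theorem len_dir_le (a : ι → ℝ) : len (dir a) ≤ 1 := by
  unfold len
  rw [Real.sqrt_le_one]
  exact dir_sq_le a

/-- **(U4)**: `u x y` a vector function with Gram operators bounded by `g x`. -/
theorem u4 {δ e M N κ : ℝ} (hδ : 0 ≤ δ) (he0 : 0 ≤ e) (he1 : e ≤ 1) (hM : 0 ≤ M)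
    (hN : 0 ≤ N) (hκ : 0 < κ) {A B C : Finset ℤ} (hA : A.Nonempty) (hB : B.Nonempty)
    {G : ℤ × ℤ × ℤ → ℝ} (hU : UnifBox δ e A B C G)
    (hG : ∀ x ∈ A, ∀ y ∈ B, ∀ z ∈ C, |G (x, y, z)| ≤ M)
    (u : ℤ → ℤ → ι → ℝ) (hu : ∀ x ∈ A, ∀ y ∈ B, len (u x y) ≤ N)
    (g : ℤ → ℝ) (hg0 : ∀ x ∈ A, 0 ≤ g x) (hg : ∀ x ∈ A, ∀ a : ι → ℝ,
      (avg B fun y => (∑ i, u x y i * a i) ^ 2) ≤ g x * ∑ i, a i ^ 2) :
    (avg B fun c => avg B fun y => avg C fun z =>
      (avg A fun x => (∑ i, u x y i * u x c i) * (G (x, y, z) * G (x, c, z))) ^ 2) ≤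
      cbT δ e M (N * N) κ * (avg A g * (avg A fun x => avg B fun y => avg C fun z =>
        (len (u x y) * G (x, y, z)) ^ 2)) + cbErr δ e M (N * N) κ := by
  have hstep : ∀ c ∈ B, (avg B fun y => avg C fun z =>
      (avg A fun x => (∑ i, u x y i * u x c i) * (G (x, y, z) * G (x, c, z))) ^ 2) ≤
      cbT δ e M (N * N) κ * ((avg B fun y => avg A fun x => (∑ i, u x y i * dir (u x c) i) ^ 2) *
        (avg A fun x => avg C fun z => (len (u x c) * G (x, c, z)) ^ 2)) +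
        cbErr δ e M (N * N) κ := by
    intro c hc
    have key := u4_center (N := N) (V := N) hδ he0 he1 hM hN hN hκ hA hU hG hc
      (fun x => len (u x c)) (fun x hx => by
        rw [abs_of_nonneg (len_nonneg _)]; exact hu x hx c hc)
      (fun y x => ∑ i, u x y i * dir (u x c) i) (fun y hy x hx => by
        refine (abs_sum_mul_le _ _).trans ?_
        calc len (u x y) * len (dir (u x c)) ≤ N * 1 :=
              mul_le_mul (hu x hx y hy) (len_dir_le _) (len_nonneg _) hN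
          _ = N := mul_one N) le_rfl le_rfl
    refine le_trans (le_of_eq ?_) key
    refine avg_congr fun y _ => avg_congr fun z _ => ?_
    congr 1
    refine avg_congr fun x _ => ?_
    congr 1
    rw [Finset.mul_sum]
    refine Finset.sum_congr rfl fun i _ => ?_
    have := len_mul_dir (u x c) i
    calc u x y i * u x c i = u x y i * (len (u x c) * dir (u x c) i) := by rw [this]
      _ = _ := by ring
  have hcb : 0 ≤ cbT δ e M (N * N) κ := cbT_nonneg hM hκ.le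
  calc _ ≤ avg B (fun c => cbT δ e M (N * N) κ *
        ((avg B fun y => avg A fun x => (∑ i, u x y i * dir (u x c) i) ^ 2) *
        (avg A fun x => avg C fun z => (len (u x c) * G (x, c, z)) ^ 2)) +
        cbErr δ e M (N * N) κ) := avg_mono hstep
    _ ≤ avg B (fun c => cbT δ e M (N * N) κ * (avg A g *
        (avg A fun x => avg C fun z => (len (u x c) * G (x, c, z)) ^ 2)) +
        cbErr δ e M (N * N) κ) := by
        refine avg_mono fun c hc => ?_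
        have h1 : (avg B fun y => avg A fun x => (∑ i, u x y i * dir (u x c) i) ^ 2) ≤
            avg A g := by
          rw [avg_comm]
          refine avg_mono fun x hx => (hg x hx _).trans ?_
          calc g x * ∑ i, dir (u x c) i ^ 2 ≤ g x * 1 :=
                mul_le_mul_of_nonneg_left (dir_sq_le _) (hg0 x hx)
            _ = g x := mul_one _
        have h2 : 0 ≤ avg A fun x => avg C fun z => (len (u x c) * G (x, c, z)) ^ 2 :=
          avg_nonneg fun _ _ => avg_nonneg fun _ _ => sq_nonneg _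
        have := mul_le_mul_of_nonneg_left (mul_le_mul_of_nonneg_right h1 h2) hcb
        linarith
    _ = _ := by
        rw [avg_add, avg_mul_left, avg_mul_left, avg_const hB]
        congr 3
        rw [avg_comm]

end vec

end

end Vale.Agent.P141.H540
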