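import Vale.Agent.P141.H540.Lift

/-!
# P141, line W, end lemma: the part of the residual kernels (E4)

The atom `a12 a13 a23` and the first coordinate `x0` are fixed.  The two moving functions of small
local energy are lifts of functions of the line, the third path is the residual of the plane
process, with a small cap.
-/

namespace Vale.Agent.P141.H540

open Finset Matrix Vale.Agent.P075 Vale.Agent.P141.PL Vale.Agent.P141.PL.H588
open Vale.Agent.P141.PL.H804 Vale.Agent.P141.H736 Vale.Agent.P141.H958 Vale.Agent.P141.H170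

noncomputable section

open scoped Classical

/-- A moving function of the line under the forms `t + d x + d' y`, on the root square with the
indices `R`, `S` of scale `N`: the points `T k` change from the scale `k + 1` to the scale `k`, the
points `T' k` are in the squares of scale `k` which meet them; `D` is the power. -/
structure MovL (N : ℕ) (R S : ℤ) (t d d' : ℤ) (T T' : ℕ → ℤ → Prop) (I : Finset ℤ)
    (G : ℕ → ℤ → ℝ) (D : ℝ) : Prop where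
  ne : d' ≠ 0
  zero : G 0 = 0
  step : ∀ k < N, ∀ s, ¬ T k s → G (k + 1) s = G k s
  near : ∀ k < N, ∀ s s', T k s' → |s - s'| ≤ (|d| + |d'|) * (2 ^ k - 1) → T' k s
  img : ∀ x ∈ iv N R, ∀ y ∈ iv N S, ln t d d' x y ∈ I
  pow : ∑ k ∈ range N, ∑ s ∈ I, (if T' k s then G (k + 1) s ^ 2 else 0) ≤ D

/-- the local energy `e` of the moving function at the squares of the used boxes -/
def LocL (t d d' : ℤ) (G : ℕ → ℤ → ℝ) (e : ℝ) (k : ℕ) (n m : ℤ) : Prop :=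
  ∃ J : Finset ℤ, (∀ x ∈ iv k n, ∀ y ∈ iv k m, ln t d d' x y ∈ J) ∧ ∑ s ∈ J, G k s ^ 2 ≤ 2 ^ k * e

section

variable {N : ℕ} {R : Pt} {c : ℕ → ℤ} {s : ℕ → Finset Pt}
  {a12 a13 : ℤ → ℤ → ℝ} {M12 M13 : ℝ}
  {t3 d3 d3' t2 d2 d2' : ℤ} {TY TY' TX TX' : ℕ → ℤ → Prop} {IY IX : Finset ℤ}
  {Y X : ℕ → ℤ → ℝ} {DY DX eY eX : ℝ}
  {B : ℕ → ℤ → ℤ → ℝ} {QB : ℕ → ℤ → ℤ → Prop} {σ DB : ℝ}

/-- **(E4), one atom, one `x0`.** -/
theorem wpart (hc : Pl c) (hs : ∀ k ∈ Icc 1 N, s k ⊆ bx3 N R k (c k))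
    (h12 : 0 < M12) (h13 : 0 < M13) (hM12 : ∀ x y, |a12 x y| ≤ M12) (hM13 : ∀ x y, |a13 x y| ≤ M13)
    (hY : MovL N R.1 R.2.1 t3 d3 d3' TY TY' IY Y DY)
    (hX : MovL N R.1 R.2.2 t2 d2 d2' TX TX' IX X DX)
    (heY : 0 < eY) (heX : 0 < eX)
    (lY : ∀ k ∈ Icc 1 N, ∀ m ∈ s k, LocL t3 d3 d3' Y eY k m.1 m.2.1)
    (lX : ∀ k ∈ Icc 1 N, ∀ m ∈ s k, LocL t2 d2 d2' X eX k m.1 m.2.2)
    (pB : Path N R.2.1 R.2.2 QB B) (zB : B 0 = 0) (hσ : 0 < σ)
    (capB : ∀ k ∈ Icc 1 N, ∀ m ∈ s k, Cap k m.2.1 m.2.2 σ (B k))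
    (hDB : pwr N R.2.1 R.2.2 QB B ≤ DB) :
    ∑ k ∈ Icc 1 N, (2 ^ k : ℝ)⁻¹ * ∑ m ∈ s k,
      |tri k m (lft a12 t3 d3 d3' Y k) (B k) (lft a13 t2 d2 d2' X k)| ≤
      26016 * (M12 * M13) * (√(eY * (2 ^ N * DX) * DB) + σ * 2 ^ N * √(DX * DY) +
        √(eX * (2 ^ N * DY) * DB)) := by
  have capA : ∀ k ∈ Icc 1 N, ∀ m ∈ s k,
      Cap k m.1 m.2.1 (M12 * √eY) (lft a12 t3 d3 d3' Y k) := by
    intro k hk m hm
    obtain ⟨J, hJ, hE⟩ := lY k hk m hm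
    exact cap_lft hY.ne hM12 heY.le hJ hE
  have capC : ∀ k ∈ Icc 1 N, ∀ m ∈ s k,
      Cap k m.1 m.2.2 (M13 * √eX) (lft a13 t2 d2 d2' X k) := by
    intro k hk m hm
    obtain ⟨J, hJ, hE⟩ := lX k hk m hm
    exact cap_lft hX.ne hM13 heX.le hJ hE
  have pA := path_lft (R := R.1) (S := R.2.1) a12 (t := t3) (d := d3) (d' := d3') hY.step
  have pC := path_lft (R := R.1) (S := R.2.2) a13 (t := t2) (d := d2) (d' := d2') hX.step
  have key := starB hc hs (by positivity : 0 < M12 * √eY) hσ (by positivity : 0 < M13 * √eX)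
    capA capB capC pA pB pC (lft_zero _ _ _ _ hY.zero) zB (lft_zero _ _ _ _ hX.zero)
  refine key.trans ?_
  have qA : pwr N R.1 R.2.1 (QL t3 d3 d3' TY) (lft a12 t3 d3 d3' Y) ≤ M12 ^ 2 * (2 ^ N * DY) :=
    (pwr_lft_le hY.ne hM12 hY.img hY.near).trans (mul_le_mul_of_nonneg_left
      (mul_le_mul_of_nonneg_left hY.pow (by positivity)) (sq_nonneg _))
  have qC : pwr N R.1 R.2.2 (QL t2 d2 d2' TX) (lft a13 t2 d2 d2' X) ≤ M13 ^ 2 * (2 ^ N * DX) :=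
    (pwr_lft_le hX.ne hM13 hX.img hX.near).trans (mul_le_mul_of_nonneg_left
      (mul_le_mul_of_nonneg_left hX.pow (by positivity)) (sq_nonneg _))
  have nA := pwr_nonneg N R.1 R.2.1 (QL t3 d3 d3' TY) (lft a12 t3 d3 d3' Y)
  have nB := pwr_nonneg N R.2.1 R.2.2 QB B
  have nC := pwr_nonneg N R.1 R.2.2 (QL t2 d2 d2' TX) (lft a13 t2 d2 d2' X)
  have nDB : 0 ≤ DB := nB.trans hDB
  have nDY : 0 ≤ DY := by
    refine le_trans (sum_nonneg fun k _ => sum_nonneg fun s _ => ?_) hY.pow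
    split_ifs <;> positivity
  have nDX : 0 ≤ DX := by
    refine le_trans (sum_nonneg fun k _ => sum_nonneg fun s _ => ?_) hX.pow
    split_ifs <;> positivity
  have sq1 : ∀ {a b x y : ℝ}, 0 ≤ a → 0 ≤ x → x ≤ a ^ 2 * b → y ≤ DB →
      0 ≤ y → 0 ≤ b → √(y * x) ≤ a * √(b * DB) := by
    intro a b x y ha hx h1 h2 h3 hb
    have : a * √(b * DB) = √(a ^ 2 * (b * DB)) := by
      rw [Real.sqrt_mul (sq_nonneg a), Real.sqrt_sq ha]
    rw [this]
    refine Real.sqrt_le_sqrt ?_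
    calc y * x ≤ DB * (a ^ 2 * b) := mul_le_mul h2 h1 hx nDB
      _ = a ^ 2 * (b * DB) := by ring
  have r1 : √(pwr N R.2.1 R.2.2 QB B * pwr N R.1 R.2.2 (QL t2 d2 d2' TX) (lft a13 t2 d2 d2' X)) ≤
      M13 * √(2 ^ N * DX * DB) := sq1 h13.le nC qC hDB nB (by positivity)
  have r3 : √(pwr N R.1 R.2.1 (QL t3 d3 d3' TY) (lft a12 t3 d3 d3' Y) * pwr N R.2.1 R.2.2 QB B) ≤
      M12 * √(2 ^ N * DY * DB) := by
    rw [mul_comm (pwr N R.1 R.2.1 _ _)]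
    exact sq1 h12.le nA qA hDB nB (by positivity)
  have r2 : √(pwr N R.1 R.2.2 (QL t2 d2 d2' TX) (lft a13 t2 d2 d2' X) *
      pwr N R.1 R.2.1 (QL t3 d3 d3' TY) (lft a12 t3 d3 d3' Y)) ≤
      M12 * M13 * (2 ^ N * √(DX * DY)) := by
    have e : M12 * M13 * (2 ^ N * √(DX * DY)) =
        √((M12 * M13 * 2 ^ N) ^ 2 * (DX * DY)) := by
      rw [Real.sqrt_mul (sq_nonneg _), Real.sqrt_sq (by positivity)]; ring
    rw [e]
    refine Real.sqrt_le_sqrt ?_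
    calc _ ≤ (M13 ^ 2 * (2 ^ N * DX)) * (M12 ^ 2 * (2 ^ N * DY)) :=
          mul_le_mul qC qA nA (by positivity)
      _ = _ := by ring
  unfold st3
  have f1 : M12 * √eY * (M13 * √(2 ^ N * DX * DB)) = M12 * M13 * √(eY * (2 ^ N * DX) * DB) := by
    rw [show eY * (2 ^ N * DX) * DB = eY * (2 ^ N * DX * DB) by ring, Real.sqrt_mul heY.le]
    ring
  have f3 : M13 * √eX * (M12 * √(2 ^ N * DY * DB)) = M12 * M13 * √(eX * (2 ^ N * DY) * DB) := by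
    rw [show eX * (2 ^ N * DY) * DB = eX * (2 ^ N * DY * DB) by ring, Real.sqrt_mul heX.le]
    ring
  have g1 := mul_le_mul_of_nonneg_left r1 (by positivity : 0 ≤ M12 * √eY)
  have g2 := mul_le_mul_of_nonneg_left r2 hσ.le
  have g3 := mul_le_mul_of_nonneg_left r3 (by positivity : 0 ≤ M13 * √eX)
  rw [f1] at g1
  rw [f3] at g3
  refine (mul_le_mul_of_nonneg_left (add_le_add (add_le_add g1 g2) g3)
    (by norm_num : (0 : ℝ) ≤ 26016)).trans (le_of_eq ?_)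
  ring

end

end

end Vale.Agent.P141.H540
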